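import Crest.Agent.N207.S.Ga.Top
import Crest.Agent.N207.S.Top.Defs
import Crest.Agent.N207.S.Ga.Jet
import Crest.Agent.N207.S.Rg.Pt
import Crest.Agent.N207.S.Ga.X
import Crest.Agent.N207.S.MP
import Crest.Agent.N207.S.Rg.Defs
import Crest.Agent.N207.S.Rg.Seq
import Crest.Agent.N207.S.Out.Seq
import Crest.Agent.N207.S.Out.Vj
import Crest.Agent.N207.X.JS
import Crest.Agent.N207.S.I1.Bar
import Crest.Agent.N207.S.I1.PDefs_Mg

-- ▼ part N207/S/Ga/Fin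
section

/-!
Row 207, S0320, block GAUGE (helper66): the statements `Top.GaNear`, `Top.GaFin`.
-/

set_option autoImplicit false

open Set Filter
open scoped Topology ContDiff

noncomputable section
namespace Crest.Agent.N207.S.Ga

lemma wT_eq (U : ℝ → ℝ → E3) : Top.wT U = wj U := by
  funext j t x
  rcases j with _ | _ | j <;> simp [Top.wT, wj, Top.idS, idj, add_comm]

theorem gaNear : Top.GaNear := by
  intro e b h t U ht hU hc
  rw [wT_eq]
  exact ⟨fun s hs x hx j => peq ht hU hc j s hs x hx,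
    xsol ht hU (peq0 ht hU hc) (by norm_num)⟩

theorem gaFin : Top.GaFin := by
  intro q b h T X U _ hT hX hX' hU hc ⟨C1, hC1⟩ ⟨K, C, hK, hKO, hC⟩ htip
  rw [wT_eq] at hC1
  refine ⟨0, topStmt q b _ h T X U rfl hT hX (by linarith) hU hc
    ⟨C1, fun t ht => hC1 t ⟨ht.1.le, ht.2⟩⟩ ⟨K, C, hK, hKO, fun t ht x hx => ?_⟩ ?_⟩
  · obtain ⟨a, c⟩ := hC t ⟨ht.1.le, ht.2⟩ x hx
    exact ⟨a, (c 2 le_rfl).1, (c 1 one_le_two).2⟩
  · simpa [wj_zero] using htip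

end Crest.Agent.N207.S.Ga
end
end

-- ▼ part N207/S/Rg/FDefs
section

/-!
Row 207 (S0320), block FAR: the differentiated system away from the tip (statement).
-/

set_option autoImplicit false

open Set

namespace Crest.Agent.N207.S.Rg

/-- The `j` times differentiated system on a compact part of the domain away from `x = 0`. -/
def FarStmt : Prop :=
  ∀ (S : Ex.Sys Ga.E3) (K0 : Set (ℝ × Ga.E3)), IsCompact K0 → K0 ⊆ S.Om →
    (∀ x u, (x, u) ∈ K0 → 2 / 3 ≤ x → ∀ y ∈ Icc x 1, (y, u) ∈ K0) →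
    ∀ (xs M : ℝ) (j : ℕ), 0 < xs → ∃ K : ℝ, 1 ≤ K ∧
    ∀ (t0 t1 : ℝ) (U : ℝ → ℝ → Ga.E3), Ex.IsSol S t0 t1 U → ∀ t ∈ Icc t0 t1, ∀ x ∈ Icc xs 1,
      (x, U t x) ∈ K0 → (∀ i, ∀ l ≤ max j 1, |Ga.cj U i l t x| ≤ M) →
      1 ≤ K * S.a (x, U t x) ∧ S.a (x, U t x) ≤ K ∧ ∀ i,
      |Ga.ct S U i j t x - S.a (x, U t x) * Ex.mu x * Ga.cj U i (j + 2) t x -
          S.a (x, U t x) * (j * (1 - 2 * x) - S.b) * Ga.cj U i (j + 1) t x| ≤
        K * (1 + Ex.mu x * (|Ga.cj U 0 (j + 1) t x| + |Ga.cj U 1 (j + 1) t x| +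
          |Ga.cj U 2 (j + 1) t x|))

end Crest.Agent.N207.S.Rg
end

-- ▼ part N207/S/Rg/Sol
section

/-!
Row 207 (S0320), REG + FAR: the Bernstein functions of a solution.
-/

set_option autoImplicit false

open Set

namespace Crest.Agent.N207.S.Rg

open Ga

noncomputable section

/-- The weight. -/
def wA (U : ℝ → ℝ → E3) (s x : ℝ) : ℝ := wF x (U s x 0)
/-- Its first space derivative. -/
def w1A (U : ℝ → ℝ → E3) (s x : ℝ) : ℝ := 1 + m2 x * cj U 0 0 s x + m1 x * cj U 0 1 s x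
/-- Its second space derivative. -/
def w2A (U : ℝ → ℝ → E3) (s x : ℝ) : ℝ :=
  m3 x * cj U 0 0 s x + 2 * m2 x * cj U 0 1 s x + m1 x * cj U 0 2 s x

/-- `Φ_j`. -/
def F0 (j : ℕ) (e : ℝ) (U : ℝ → ℝ → E3) (s x : ℝ) : ℝ :=
  PhJ j e (wA U s x) (fun l => cj U 0 l s x) fun l => cj U 2 l s x
/-- `∂ₜ Φ_j`. -/
def Ft (S : Ex.Sys E3) (j : ℕ) (e : ℝ) (U : ℝ → ℝ → E3) (s x : ℝ) : ℝ :=
  PhJ1 j e (wA U s x) (m1 x * ct S U 0 0 s x) (fun l => cj U 0 l s x) (fun l => cj U 2 l s x)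
    (ct S U 0 (j + 1) s x) (ct S U 2 j s x)
/-- `∂ₓ Φ_j`. -/
def Fx (j : ℕ) (e : ℝ) (U : ℝ → ℝ → E3) (s x : ℝ) : ℝ :=
  PhJ1 j e (wA U s x) (w1A U s x) (fun l => cj U 0 l s x) (fun l => cj U 2 l s x)
    (cj U 0 (j + 2) s x) (cj U 2 (j + 1) s x)
/-- `∂ₓ² Φ_j`. -/
def Fxx (j : ℕ) (e : ℝ) (U : ℝ → ℝ → E3) (s x : ℝ) : ℝ :=
  PhJ2 j e (wA U s x) (w1A U s x) (w2A U s x) (fun l => cj U 0 l s x) fun l => cj U 2 l s x

theorem hd_Ph {u v : ℝ → ℝ} {c u1 v1 x : ℝ} {I : Set ℝ} (hu : HasDerivWithinAt u u1 I x)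
    (hv : HasDerivWithinAt v v1 I x) :
    HasDerivWithinAt (fun y => Ph c (u y) (v y)) (Ph1 c (u x) u1 (v x) v1) I x := by
  refine (((hu.fun_pow 2).const_mul c).fun_add ((hv.fun_pow 2).div_const 64)).congr_deriv ?_
  unfold Ph1; simp; ring

theorem hd_Ph1 {u v u1 v1 : ℝ → ℝ} {c u2 v2 x : ℝ} {I : Set ℝ}
    (hu : HasDerivWithinAt u (u1 x) I x) (hu1 : HasDerivWithinAt u1 u2 I x)
    (hv : HasDerivWithinAt v (v1 x) I x) (hv1 : HasDerivWithinAt v1 v2 I x) :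
    HasDerivWithinAt (fun y => Ph1 c (u y) (u1 y) (v y) (v1 y))
      (Ph2 c (u x) (u1 x) u2 (v x) (v1 x) v2) I x := by
  refine (((hu.const_mul (2 * c)).fun_mul hu1).fun_add
    ((hv.fun_mul hv1).div_const 32)).congr_deriv ?_
  unfold Ph2; ring

/-- The sign of the operator at a first touching point. -/
theorem touch_both {f : ℝ → ℝ → ℝ} {fx : ℝ → ℝ} {ft fxx s x Z σ : ℝ} (h0 : 0 < s)
    (hx : x ∈ Icc (0 : ℝ) 1) (ht : HasDerivWithinAt (fun r => f r x) ft (Iic s) s)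
    (hfx : ∀ y ∈ Icc (0 : ℝ) 1, HasDerivWithinAt (f s) (fx y) (Icc 0 1) y)
    (hfxx : HasDerivWithinAt fx fxx (Icc 0 1) x) (hz : f s x = 0)
    (hp : ∀ r y, 0 ≤ r → r ≤ s → 0 ≤ y → y ≤ 1 → f r y ≤ 0) (hZ : 0 ≤ Z)
    (hl : x = 0 → Z = 0 ∧ 0 ≤ σ) (hr : x = 1 → Z = 0 ∧ σ ≤ 0) : 0 ≤ ft - Z * fxx - σ * fx x := by
  have a0 : 0 ≤ ft := MP.deriv_nonneg_of_past h0 ht hz fun r a b => hp r x a.le b.le hx.1 hx.2
  rcases hx.1.eq_or_lt with a | a
  · subst a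
    have := MP.deriv_nonpos_of_right zero_lt_one (hfx 0 hx) hz fun y c d =>
      hp s y h0.le le_rfl c.le d.le
    obtain ⟨rfl, b⟩ := hl rfl
    nlinarith [mul_nonneg b (neg_nonneg.2 this)]
  rcases hx.2.eq_or_lt with b | b
  · subst b
    have := MP.deriv_nonneg_of_left zero_lt_one (hfx 1 hx) hz fun y c d =>
      hp s y h0.le le_rfl c.le d.le
    obtain ⟨rfl, b⟩ := hr rfl
    nlinarith [mul_nonneg (neg_nonneg.2 b) this]
  obtain ⟨c, d⟩ := MP.interior_max a b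
    (fun y u v => (hfx y ⟨u.le, v.le⟩).hasDerivAt (Icc_mem_nhds u v))
    (hfxx.hasDerivAt (Icc_mem_nhds a b)) hz fun y u v => hp s y h0.le le_rfl u.le v.le
  rw [c]
  nlinarith [mul_nonneg hZ (neg_nonneg.2 d)]

section
variable {e : ℝ} {b : ℕ} {h : Rel e b} {t s x : ℝ} {U : ℝ → ℝ → E3}

theorem wA_pos (hU : Ex.IsSol (sys h) 0 t U) (hs : s ∈ Icc 0 t) (hx : x ∈ Icc (0 : ℝ) 1) :
    0 < wA U s x := (hU.mem s hs x hx).1

theorem hd_wA (ht : 0 < t) (hU : Ex.IsSol (sys h) 0 t U) (hs : s ∈ Icc 0 t)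
    (hx : x ∈ Icc (0 : ℝ) 1) : HasDerivWithinAt (wA U s) (w1A U s x) (Icc 0 1) x := by
  refine ((hasDerivWithinAt_id x _).fun_add ((hd_m1 x).hasDerivWithinAt.fun_mul
    ((jet_sol ht hU 0).dx 0 s x hs hx))).congr_deriv ?_
  unfold w1A; ring

theorem hd_w1A (ht : 0 < t) (hU : Ex.IsSol (sys h) 0 t U) (hs : s ∈ Icc 0 t)
    (hx : x ∈ Icc (0 : ℝ) 1) : HasDerivWithinAt (w1A U s) (w2A U s x) (Icc 0 1) x := by
  refine ((((hd_m2 x).hasDerivWithinAt.fun_mul ((jet_sol ht hU 0).dx 0 s x hs hx)).const_add 1).fun_add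
    ((hd_m1 x).hasDerivWithinAt.fun_mul ((jet_sol ht hU 0).dx 1 s x hs hx))).congr_deriv ?_
  unfold w2A; ring

theorem hd_Fx (ht : 0 < t) (hU : Ex.IsSol (sys h) 0 t U) (j : ℕ) (hs : s ∈ Icc 0 t)
    (hx : x ∈ Icc (0 : ℝ) 1) : HasDerivWithinAt (F0 j e U s) (Fx j e U s x) (Icc 0 1) x :=
  hd_Ph (hd_g0 j (hd_wA ht hU hs hx) ((jet_sol ht hU 0).dx (j + 1) s x hs hx) (wA_pos hU hs hx).ne')
    (hd_g0 (j + 1) (hd_wA ht hU hs hx) (((jet_sol ht hU 2).dx j s x hs hx).div_const e)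
      (wA_pos hU hs hx).ne')

theorem hd_Fxx (ht : 0 < t) (hU : Ex.IsSol (sys h) 0 t U) (j : ℕ) (hs : s ∈ Icc 0 t)
    (hx : x ∈ Icc (0 : ℝ) 1) : HasDerivWithinAt (Fx j e U s) (Fxx j e U s x) (Icc 0 1) x :=
  hd_Ph1
    (hd_g0 j (hd_wA ht hU hs hx) ((jet_sol ht hU 0).dx (j + 1) s x hs hx) (wA_pos hU hs hx).ne')
    (hd_g1 j (hd_wA ht hU hs hx) (hd_w1A ht hU hs hx) ((jet_sol ht hU 0).dx (j + 1) s x hs hx)
      ((jet_sol ht hU 0).dx (j + 2) s x hs hx) (wA_pos hU hs hx).ne')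
    (hd_g0 (j + 1) (hd_wA ht hU hs hx) (((jet_sol ht hU 2).dx j s x hs hx).div_const e)
      (wA_pos hU hs hx).ne')
    (hd_g1 (f0 := fun y => cj U 2 j s y / e) (f1 := fun y => cj U 2 (j + 1) s y / e) (j + 1)
      (hd_wA ht hU hs hx) (hd_w1A ht hU hs hx) (((jet_sol ht hU 2).dx j s x hs hx).div_const e)
      (((jet_sol ht hU 2).dx (j + 1) s x hs hx).div_const e) (wA_pos hU hs hx).ne')

theorem hd_Ft (ht : 0 < t) (hU : Ex.IsSol (sys h) 0 t U) (j : ℕ) (hs : s ∈ Icc 0 t)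
    (hx : x ∈ Icc (0 : ℝ) 1) :
    HasDerivWithinAt (fun r => F0 j e U r x) (Ft (sys h) j e U s x) (Icc 0 t) s := by
  have hw : HasDerivWithinAt (fun r => wA U r x) (m1 x * ct (sys h) U 0 0 s x) (Icc 0 t) s :=
    (((jet_sol ht hU 0).dt 0 s x hs hx).const_mul (m1 x)).const_add x
  exact hd_Ph (hd_g0 j hw ((jet_sol ht hU 0).dt (j + 1) s x hs hx) (wA_pos hU hs hx).ne')
    (hd_g0 (j + 1) hw (((jet_sol ht hU 2).dt j s x hs hx).div_const e) (wA_pos hU hs hx).ne')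

theorem cont_F0 (ht : 0 < t) (hU : Ex.IsSol (sys h) 0 t U) (j : ℕ) :
    ContinuousOn (fun p : ℝ × ℝ => F0 j e U p.1 p.2) (Icc 0 t ×ˢ Icc 0 1) := by
  have a0 : ContinuousOn (fun p : ℝ × ℝ => wA U p.1 p.2) (Icc 0 t ×ˢ Icc 0 1) :=
    continuousOn_snd.add ((contDiff_m1.continuous.comp continuous_snd).continuousOn.mul
      ((jet_sol ht hU 0).cu 0))
  exact (continuousOn_const.mul (((a0.pow j).mul ((jet_sol ht hU 0).cu (j + 1))).pow 2)).add
    ((((a0.pow (j + 1)).mul (((jet_sol ht hU 2).cu j).div_const e)).pow 2).div_const 64)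

theorem ct_one (ht : 0 < t) (hU : Ex.IsSol (sys h) 0 t U)
    (hP : ∀ s ∈ Icc 0 t, ∀ x ∈ Icc (0 : ℝ) 1, U s x 1 = cj U 0 1 s x) (j : ℕ) (hs : s ∈ Icc 0 t)
    (hx : x ∈ Icc (0 : ℝ) 1) : ct (sys h) U 1 j s x = ct (sys h) U 0 (j + 1) s x :=
  (uniqueDiffOn_Icc ht s hs).eq_deriv _ ((jet_sol ht hU 1).dt j s x hs hx)
    (((jet_sol ht hU 0).dt (j + 1) s x hs hx).congr
      (fun r hr => peq_jet ht hU hr (hP r hr) j x hx) (peq_jet ht hU hs (hP s hs) j x hx))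

end

/-- The pointwise inequality near the tip for a solution. -/
theorem near_sol (j : ℕ) (C' : ℝ) : ∃ A' : ℝ, ∀ C : ℝ, ∃ B : ℝ, 0 ≤ B ∧
    ∀ (e : ℝ) (b : ℕ) (h : Rel e b) (t : ℝ) (U : ℝ → ℝ → E3), 0 < t → Ex.IsSol (sys h) 0 t U →
      (∀ s ∈ Icc 0 t, ∀ x ∈ Icc (0 : ℝ) 1, U s x 1 = cj U 0 1 s x) → 2 ≤ C' → 2 ≤ C →
      e * C ≤ 1 / 8 → ∀ s ∈ Icc 0 t, ∀ x ∈ Icc (0 : ℝ) (1 / 4), x ≤ 2 * (x + U s x 0) →
      |1 + U s x 1| ≤ 2 → (∀ i, 1 ≤ i → i < j → wA U s x ^ i * |cj U 0 (i + 1) s x| ≤ C') →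
      (∀ i ≤ max j 1, (1 ≤ i → wA U s x ^ i * |cj U 0 (i + 1) s x| ≤ C) ∧
        wA U s x ^ (i + 1) * |cj U 2 i s x| ≤ C * e) →
      ∃ Z σ : ℝ, 0 ≤ Z ∧ (x = 0 → Z = 0 ∧ 0 ≤ σ) ∧
        wA U s x * (Ft (sys h) j e U s x - Z * Fxx j e U s x - σ * Fx j e U s x) ≤
          -F0 j e U s x + A' ^ 2 / 64 + e * B := by
  obtain ⟨A', hA⟩ := near_pt j C'
  refine ⟨A', fun C => ?_⟩
  obtain ⟨B, hB0, hB⟩ := hA C
  refine ⟨B, hB0, ?_⟩
  intro e b h t U ht hU hP hC' hC heC s hs x hx hw hP2 hb' hb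
  have he := h.1
  have hx3 : x < 1 / 3 := by linarith [hx.2]
  have hx1 : x ∈ Icc (0 : ℝ) 1 := ⟨hx.1, by linarith⟩
  have X := xsol ht hU hP (xs := 1 / 4) (by norm_num)
  obtain ⟨V, v0, v1, v2, v3⟩ := jets_eq X (by norm_num) hs hx
  have e0 : wA U s x = wj U 0 s x := by simp [wA, wF, m1_left hx3, wj_zero]
  have e1 : w1A U s x = wj U 1 s x := by simp [w1A, m1_left hx3, m2_left hx3, wj_one]
  have e2 : w2A U s x = wj U 2 s x := by
    simp [w2A, m1_left hx3, m2_left hx3, m3_left hx3, wj_succ U 0]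
  have hP3 : |wj U 1 s x| ≤ 2 := by rwa [wj_one, ← hP s hs x hx1]
  have hρ := X.pos s x hs hx
  have key : ∀ (i : ℕ) (D : ℝ), 2 ≤ D → (1 ≤ i → wA U s x ^ i * |cj U 0 (i + 1) s x| ≤ D) →
      |wj U (i + 1) s x| * wj U 0 s x ^ i ≤ D := by
    intro i D hD hi
    rcases i with _ | i
    · simpa using hP3.trans hD
    · rw [wj_succ, ← e0, mul_comm]; exact hi (by omega)
  have hk0 : x * cj U 2 0 s x ≤ 1 := by
    have := (hU.mem s hs x hx1).2.1
    rw [m0_left hx3.le] at this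
    exact (sub_pos.1 this).le
  refine ⟨2 * e * x * (1 - x * cj U 2 0 s x), 1 + 2 * e * (j + 2),
    mul_nonneg (mul_nonneg (by linarith) hx.1) (sub_nonneg.2 hk0),
    fun h0 => ⟨by simp [h0], by positivity⟩, ?_⟩
  have := hB e x (fun l => wj U l s x) (fun l => cj U 0 l s x) (fun l => cj U 2 l s x)
    (fun l => ct (sys h) U 0 l s x) (fun l => ct (sys h) U 2 l s x) V (by linarith) hC he heC hρ
    hx.1 hw hP3 (fun i => wj_succ U i s x) v0 v1 (X.eqW s x hs hx) (X.eqK s x hs hx) v2 v3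
    (fun i hi => key i C' hC' fun h1 => hb' i h1 hi)
    (fun i hi => ⟨key i C hC (hb i hi).1, by rw [← e0, mul_comm, mul_comm e]; exact (hb i hi).2⟩)
  simpa only [Ft, Fxx, Fx, F0, e0, e1, e2, m1_left hx3, one_mul] using this

theorem m0_le {x : ℝ} (hx : 0 ≤ x) : m0 x ≤ 2 * x := by
  rcases le_or_gt x (1 / 3) with a | a
  · rw [m0_left a]; linarith
  · have := st_nonneg x
    have := st_le_one x
    unfold m0
    nlinarith

theorem KK_seg {c : ℝ} (hc : c ≤ 1) (M : ℝ) :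
    ∀ x u, (x, u) ∈ KK c M → 2 / 3 ≤ x → ∀ y ∈ Icc x 1, (y, u) ∈ KK c M := by
  rintro x u ⟨a0, a1, a2, a3, a4⟩ hx y hy
  rcases hy.1.eq_or_lt with rfl | hxy
  · exact ⟨a0, a1, a2, a3, a4⟩
  have hm : m1 x = -1 := by
    have h1 : m1 =ᶠ[nhdsWithin x (Ioi x)] fun _ => -1 :=
      eventually_nhdsWithin_of_forall fun z hz => m1_right (hx.trans_lt hz)
    exact tendsto_nhds_unique (contDiff_m1.continuous.continuousWithinAt (s := Ioi x) (x := x))
      (tendsto_const_nhds.congr' h1.symm)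
  simp only [wF, hm, m0_right hx] at a1 a2 a3 a4
  refine ⟨⟨by linarith [hy.1], hy.2⟩, fun _ => a1 (by linarith), ?_, ?_, a4⟩
  · simp only [wF, m1_right (hx.trans_lt hxy)]; linarith
  · simp only [m0_right (hx.trans hy.1)]
    rcases le_total 0 (u 2) with k | k
    · nlinarith [mul_nonneg k (sub_nonneg.2 hy.1)]
    · nlinarith [mul_nonneg (neg_nonneg.2 k) (sub_nonneg.2 hy.2)]

theorem le_sum_range {f : ℕ → ℝ} (hf : ∀ j, 0 ≤ f j) {j m : ℕ} (hj : j ≤ m) :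
    f j ≤ ∑ i ∈ Finset.range (m + 1), f i :=
  Finset.single_le_sum (fun i _ => hf i) (Finset.mem_range.2 (by omega))

set_option maxHeartbeats 1000000 in
/-- The pointwise estimates away from the tip for a solution. -/
theorem far_sol (hfar : FarStmt) {e : ℝ} {b : ℕ} (h : Rel e b) {m : ℕ} (hm : 2 ≤ m) {xs C : ℝ}
    (hxs : 0 < xs) (hx0 : xs ≤ del0 / 2) (hx1 : xs ≤ 1 / 4) (hC : 1 ≤ C) (heC : e * C ≤ 1 / 8) :
    ∃ N Λ : ℝ, 0 ≤ N ∧ 0 ≤ Λ ∧ ∀ (t : ℝ) (U : ℝ → ℝ → E3), 0 < t → Ex.IsSol (sys h) 0 t U →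
      (∀ s ∈ Icc 0 t, ∀ x ∈ Icc (0 : ℝ) 1, U s x 1 = cj U 0 1 s x) →
      ∀ s ∈ Icc 0 t, ∀ x ∈ Icc xs 1, |U s x 0| ≤ 2 * xs ^ 2 →
      (∀ j ≤ m, wA U s x ^ j * |cj U 0 (j + 1) s x| ≤ C ∧
        wA U s x ^ (j + 1) * |cj U 2 j s x| ≤ C * e) →
      x ≤ 2 * wA U s x ∧ (∀ j, j + 1 ≤ m → |ct (sys h) U 0 j s x| ≤ N) ∧
      (∀ j, j + 2 ≤ m → |ct (sys h) U 2 j s x| ≤ N) ∧
      ∀ j ≤ m, ∃ Z σ : ℝ, 0 ≤ Z ∧ (x = 1 → Z = 0 ∧ σ ≤ 0) ∧
        Ft (sys h) j e U s x - Z * Fxx j e U s x - σ * Fx j e U s x ≤ Λ := by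
  have he := h.1
  have he1 : e ≤ 1 := by nlinarith
  have hi1 : 1 ≤ 2 / xs := by rw [le_div_iff₀ hxs]; linarith
  set M : ℝ := C * (2 / xs) ^ (m + 1) with hMd
  have hM : 1 ≤ M := one_le_mul_of_one_le_of_one_le hC (one_le_pow₀ hi1)
  choose Kf hK1 hKf using fun j => hfar (sys h) (KK (xs / 2) M) (isCompact_KK _ _)
    (KK_subset (by positivity) M) (KK_seg (by linarith) M) xs M j hxs
  set Ks : ℝ := ∑ i ∈ Finset.range (m + 1), Kf i with hKs
  have hKs1 : ∀ j ≤ m, Kf j ≤ Ks := fun j hj => le_sum_range (fun i => by linarith [hK1 i]) hj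
  have hKs0 : 0 ≤ Ks := by linarith [hKs1 0 (by omega), hK1 0]
  obtain ⟨Mp, hMp⟩ := (isCompact_Icc (a := (0 : ℝ)) (b := 1)).exists_bound_of_continuousOn
    (f := fun x => |m1 x| + |m2 x| + |m3 x|)
    (((contDiff_m1.continuous.abs.add contDiff_m2.continuous.abs).add
      contDiff_m3.continuous.abs).continuousOn)
  have hMp0 : 0 ≤ Mp := (norm_nonneg _).trans (hMp 0 ⟨le_rfl, zero_le_one⟩)
  set N1 : ℝ := Ks * M + Ks * (m + b) * M + Ks * (1 + 3 * M) with hN1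
  have p1 : 0 ≤ N1 := by positivity
  have p2 : 0 ≤ Mp * M := by positivity
  have p3 : 0 ≤ Mp * N1 := by positivity
  have p4 : 0 ≤ Ks * (m + b) := by positivity
  have p5 : 0 < e⁻¹ := by positivity
  have p6 : (0 : ℝ) ≤ m := by positivity
  set N : ℝ := 2 + m + e⁻¹ + 2 / xs + 4 * (Mp * M) + Mp * N1 + Ks * (m + b) + Ks + M with hNd
  have hN : 1 ≤ N := by linarith
  choose Λ hΛ0 hΛ using fun j => far_pt (min j m) N hN (by
    have : ((min j m : ℕ) : ℝ) ≤ m := by exact_mod_cast min_le_right j m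
    linarith)
  refine ⟨N1, ∑ i ∈ Finset.range (m + 1), Λ i, p1, Finset.sum_nonneg fun i _ => hΛ0 i, ?_⟩
  intro t U ht hU hP s hs x hx hη hb
  have hx01 : x ∈ Icc (0 : ℝ) 1 := ⟨hxs.le.trans hx.1, hx.2⟩
  have hη1 : |U s x 0| ≤ del0 := by nlinarith [del0_pos]
  have hη2 : |m1 x * U s x 0| ≤ xs / 2 := by
    have h1 := (small_of_del0 (η := U s x 0 / xs) hx01 (by
      rw [abs_div, abs_of_pos hxs, div_le_iff₀ hxs]; nlinarith)).2.2
    rw [← mul_div_assoc, abs_div, abs_of_pos hxs, div_le_iff₀ hxs] at h1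
    linarith
  have hw1 : x ≤ 2 * wA U s x := by unfold wA wF; linarith [(abs_le.1 hη2).1, hx.1]
  have hw2 : wA U s x ≤ 2 := by unfold wA wF; linarith [(abs_le.1 hη2).2, hx.2]
  have hw0 := wA_pos hU hs hx01
  have hwi : (wA U s x)⁻¹ ≤ 2 / xs := by
    rw [inv_eq_one_div, div_le_div_iff₀ hw0 hxs]; linarith [hx.1]
  have key : ∀ (i : ℕ) (a : ℝ), i ≤ m + 1 → wA U s x ^ i * |a| ≤ C → |a| ≤ M := by
    intro i a hi ha
    have h1 : (wA U s x)⁻¹ ^ i ≤ (2 / xs) ^ (m + 1) :=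
      (pow_le_pow_left₀ (by positivity) hwi i).trans (pow_le_pow_right₀ hi1 hi)
    have h2 : |a| = wA U s x ^ i * |a| * (wA U s x)⁻¹ ^ i := by rw [inv_pow]; field_simp
    rw [h2]; exact mul_le_mul ha h1 (by positivity) (by linarith)
  have b0 : ∀ l ≤ m + 1, |cj U 0 l s x| ≤ M := by
    intro l hl
    rcases l with _ | l
    · rw [cj_zero]; nlinarith
    · exact key l _ (by omega) (hb l (by omega)).1
  have pj := fun j => peq_jet ht hU hs (hP s hs) j x hx01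
  have b1 : ∀ l ≤ m, |cj U 1 l s x| ≤ M := fun l hl => by rw [pj]; exact b0 _ (by omega)
  have b2' : ∀ l ≤ m, |cj U 2 l s x / e| ≤ M := fun l hl => key (l + 1) _ (by omega) (by
    rw [abs_div, abs_of_pos he, ← mul_div_assoc, div_le_iff₀ he]; exact (hb l hl).2)
  have b2 : ∀ l ≤ m, |cj U 2 l s x| ≤ M := fun l hl => by
    refine le_trans ?_ (b2' l hl)
    rw [abs_div, abs_of_pos he, le_div_iff₀ he]
    exact mul_le_of_le_one_right (abs_nonneg _) he1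
  have b3 : ∀ i, ∀ l ≤ m, |cj U i l s x| ≤ M := fun i l hl => by
    fin_cases i
    exacts [b0 l (by omega), b1 l hl, b2 l hl]
  have hKK : (x, U s x) ∈ KK (xs / 2) M := by
    refine ⟨hx01, fun _ => hη1, by linarith [hx.1, show wF x (U s x 0) = wA U s x from rfl], ?_,
      fun i => b3 i 0 (by omega)⟩
    have h1 := (hb 0 (by omega)).2
    rw [zero_add, pow_one, cj_zero] at h1
    have h2 := ab_mul (show |m0 x| ≤ 4 * wA U s x by
      rw [abs_of_nonneg (m0_nonneg hx01.1 hx01.2)]; linarith [m0_le hx01.1]) (le_refl |U s x 2|)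
    have h3 := (abs_le.1 h2).2
    show xs / 2 ≤ 1 - m0 x * U s x 2
    linarith
  have hf := fun j (hj : j ≤ m) => hKf j 0 t U hU s hs x hx hKK fun i l hl => b3 i l (by omega)
  set a := (sys h).a (x, U s x) with ha
  have ha0 : 0 < a := (sys h).apos _ (hU.mem s hs x hx01)
  have haK : a ≤ Ks := (hf 0 (by omega)).2.1.trans (hKs1 0 (by omega))
  have hμ0 := Ex.mu_nonneg hx01
  have hμ1 : Ex.mu x ≤ 1 := Ex.mu_le.trans (by norm_num)
  have hσ : ∀ j ≤ m, |a * (j * (1 - 2 * x) - (sys h).b)| ≤ Ks * (m + b) := fun j hj => by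
    have h1 : |(j : ℝ)| ≤ m := by rw [Nat.abs_cast]; exact_mod_cast hj
    have h2 := ab_mul h1 (show |1 - 2 * x| ≤ 1 from abs_le.2 ⟨by linarith [hx01.2], by linarith [hx01.1]⟩)
    rw [mul_one] at h2
    exact ab_mul ((ab_nn ha0.le).trans haK) (ab_sub h2 (Nat.abs_cast b).le)
  have hr : ∀ j ≤ m, ∀ i, |ct (sys h) U i j s x - a * Ex.mu x * cj U i (j + 2) s x -
      a * (j * (1 - 2 * x) - (sys h).b) * cj U i (j + 1) s x| ≤ Ks * (1 + Ex.mu x *
        (|cj U 0 (j + 1) s x| + |cj U 1 (j + 1) s x| + |cj U 2 (j + 1) s x|)) := fun j hj i =>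
    ((hf j hj).2.2 i).trans (mul_le_mul_of_nonneg_right (hKs1 j hj) (by positivity))
  have hct : ∀ i j, j + 1 ≤ m → |cj U i (j + 2) s x| ≤ M → |ct (sys h) U i j s x| ≤ N1 := by
    intro i j hj h2
    have c1 := hr j (by omega) i
    have c2 : Ex.mu x * (|cj U 0 (j + 1) s x| + |cj U 1 (j + 1) s x| + |cj U 2 (j + 1) s x|) ≤
        1 * (M + M + M) := by gcongr <;> exact b3 _ _ hj
    have c3 := mul_le_mul_of_nonneg_left c2 hKs0
    have c4 := ab_mul (ab_mul ((ab_nn ha0.le).trans haK) ((ab_nn hμ0).trans hμ1)) h2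
    have c5 := ab_mul (hσ j (by omega)) (b3 i (j + 1) hj)
    have c6 := ab_add (ab_add c1 c5) c4
    rw [sub_add_cancel, sub_add_cancel] at c6
    linarith
  have hm' := hMp x hx01
  rw [Real.norm_eq_abs, abs_of_nonneg (by positivity)] at hm'
  have q1 : |m1 x| ≤ Mp := by linarith [abs_nonneg (m2 x), abs_nonneg (m3 x)]
  have q2 : |m2 x| ≤ Mp := by linarith [abs_nonneg (m1 x), abs_nonneg (m3 x)]
  have q3 : |m3 x| ≤ Mp := by linarith [abs_nonneg (m2 x), abs_nonneg (m1 x)]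
  refine ⟨hw1, fun j hj => hct 0 j hj (b0 _ (by omega)),
    fun j hj => hct 2 j (by omega) (b2 _ hj), fun j hj => ⟨a * Ex.mu x,
      a * (j * (1 - 2 * x) - (sys h).b), by positivity, fun h1 => ⟨by simp [h1, Ex.mu], ?_⟩, ?_⟩⟩
  · rw [h1]
    refine mul_nonpos_of_nonneg_of_nonpos ha0.le ?_
    have : (0 : ℝ) ≤ j := by positivity
    have : (0 : ℝ) ≤ (sys h).b := by positivity
    linarith
  · refine le_trans ?_ (le_sum_range hΛ0 hj)
    have r1 := hr j hj 1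
    have r2 := hr j hj 2
    rw [ct_one ht hU hP j hs hx01, pj, pj] at r1
    rw [pj] at r2
    have hKN : Ks ≤ N := by linarith
    have r3 : ∀ y : ℝ, 0 ≤ y → Ks * y ≤ N * y := fun y hy => by gcongr
    have := hΛ j
    rw [min_eq_left hj] at this
    refine this e _ _ _ _ _ _ (Ex.mu x) _ _ _ _ he he1 (by linarith) hw0 (by linarith)
      (by linarith) ?_ ?_ ?_ ((hσ j hj).trans (by linarith)) hμ0 hμ1 ?_ ?_
      ((b0 _ (by omega)).trans (by linarith)) ((b0 _ (by omega)).trans (by linarith))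
      ((b2' _ hj).trans (by linarith)) (r1.trans (r3 _ (by positivity)))
      (r2.trans (r3 _ (by positivity)))
    · have := ab_add (ab_add abs_one.le (ab_mul q2 (b0 0 (by omega)))) (ab_mul q1 (b0 1 (by omega)))
      exact this.trans (by linarith)
    · have := ab_add (ab_add (ab_mul q3 (b0 0 (by omega)))
        (ab_mul (ab_mul (show |(2 : ℝ)| ≤ 2 by norm_num) q2) (b0 1 (by omega))))
        (ab_mul q1 (b0 2 (by omega)))
      exact this.trans (by linarith)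
    · exact (ab_mul q1 (hct 0 0 (by omega) (b0 _ (by omega)))).trans (by linarith)
    · have c1 := (hf 0 (by omega)).1
      have c2 : Kf 0 * a ≤ N * a := by gcongr; exact (hKs1 0 (by omega)).trans hKN
      have := mul_le_mul_of_nonneg_right (c1.trans c2) hμ0
      linarith
    · gcongr; linarith

end

end Crest.Agent.N207.S.Rg
end

-- ▼ part N207/S/Rg/Main
section

/-!
Row 207 (S0320), REG + FAR: the maximum principle argument.
-/

set_option autoImplicit false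

open Set

namespace Crest.Agent.N207.S.Rg

open Ga

theorem exists_D (Ap : ℕ → ℝ → ℝ) {a : ℝ} (ha : 0 ≤ a) : ∃ D Cp : ℕ → ℝ, Monotone D ∧
    ∀ j, a + Ap j (Cp j) ^ 2 / 64 ≤ D j ∧ 2 ≤ Cp j ∧ ∀ i < j, 3 + 2 * D i ≤ Cp j := by
  let D : ℕ → ℝ := fun n => Nat.rec (a + Ap 0 2 ^ 2 / 64)
    (fun j d => d + Ap (j + 1) (3 + 2 * d) ^ 2 / 64) n
  have h1 : ∀ j, D (j + 1) = D j + Ap (j + 1) (3 + 2 * D j) ^ 2 / 64 := fun _ => rfl
  have h0 : D 0 = a + Ap 0 2 ^ 2 / 64 := rfl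
  have hm : Monotone D := monotone_nat_of_le_succ fun j => by
    rw [h1]; exact le_add_of_nonneg_right (by positivity)
  have h2 : ∀ j, a ≤ D j := fun j => le_trans (by rw [h0]; exact le_add_of_nonneg_right (by positivity))
    (hm j.zero_le)
  refine ⟨D, fun n => Nat.rec 2 (fun j _ => 3 + 2 * D j) n, hm, fun j => ?_⟩
  rcases j with _ | j
  · exact ⟨h0.ge, le_rfl, fun i hi => absurd hi (Nat.not_lt_zero i)⟩
  · refine ⟨?_, ?_, fun i hi => ?_⟩
    · show a + Ap (j + 1) (3 + 2 * D j) ^ 2 / 64 ≤ D (j + 1)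
      rw [h1]; linarith [h2 j]
    · show 2 ≤ 3 + 2 * D j
      linarith [h2 j]
    · show 3 + 2 * D i ≤ 3 + 2 * D j
      linarith [hm (show i ≤ j by omega)]

theorem cc_nonneg (j : ℕ) : 0 ≤ cc j := by unfold cc; split_ifs <;> norm_num
theorem cc_le (j : ℕ) : cc j ≤ 1 := by unfold cc; split_ifs <;> norm_num

theorem abs_g0 (a : ℕ) {w : ℝ} (hw : 0 < w) (f : ℝ) : |g0 a w f| = w ^ a * |f| := by
  rw [g0, abs_mul, abs_of_pos (by positivity)]

theorem of_PhJ {j : ℕ} {e w D : ℝ} {H K : ℕ → ℝ} (he : 0 < e) (hw : 0 < w) (hD : 2 ≤ D)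
    (h : PhJ j e w H K ≤ D + 1) :
    (1 ≤ j → w ^ j * |H (j + 1)| ≤ 3 + 2 * D) ∧ w ^ (j + 1) * |K j| ≤ (3 + 128 * D) * e := by
  unfold PhJ Ph at h
  constructor
  · intro hj
    rw [cc, if_neg (by omega)] at h
    rw [← abs_g0 j hw]
    nlinarith [sq_nonneg (|g0 j w (H (j + 1))| - 1), sq_abs (g0 j w (H (j + 1))),
      sq_nonneg (g0 (j + 1) w (K j / e))]
  · have h1 := mul_nonneg (cc_nonneg j) (sq_nonneg (g0 j w (H (j + 1))))
    have h2 : |g0 (j + 1) w (K j / e)| ≤ 3 + 128 * D := by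
      nlinarith [sq_nonneg (|g0 (j + 1) w (K j / e)| - 1), sq_abs (g0 (j + 1) w (K j / e))]
    rwa [abs_g0 _ hw, abs_div, abs_of_pos he, ← mul_div_assoc, div_le_iff₀ he] at h2

theorem PhJ_le {j : ℕ} {e w K0 : ℝ} {H K : ℕ → ℝ} (he : 0 < e) (hw : 0 < w)
    (h1 : w ^ j * |H (j + 1)| ≤ K0) (h2 : w ^ (j + 1) * |K j| ≤ K0 * e) :
    PhJ j e w H K ≤ 2 * K0 ^ 2 := by
  have a1 : g0 j w (H (j + 1)) ^ 2 ≤ K0 ^ 2 := by
    rw [← sq_abs, abs_g0 j hw]; exact pow_le_pow_left₀ (by positivity) h1 2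
  have a2 : g0 (j + 1) w (K j / e) ^ 2 ≤ K0 ^ 2 := by
    rw [← sq_abs, abs_g0 _ hw, abs_div, abs_of_pos he, ← mul_div_assoc]
    exact pow_le_pow_left₀ (by positivity) ((div_le_iff₀ he).2 h2) 2
  have a3 := mul_le_mul_of_nonneg_right (cc_le j) (sq_nonneg (g0 j w (H (j + 1))))
  unfold PhJ Ph
  nlinarith [sq_nonneg K0]

set_option maxHeartbeats 1000000 in
/-- **Block REG + FAR** from the differentiated system away from the tip. -/
theorem regStmt_of (hfar : FarStmt) : RegStmt := by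
  refine ⟨min (del0 / 2) (1 / 4), lt_min (half_pos del0_pos) (by norm_num), fun m K0 hm => ?_⟩
  choose Ap hAp using near_sol
  choose Bp hB0 hB using hAp
  obtain ⟨D, Cp, hmono, hD⟩ := exists_D Ap (a := 2 * K0 ^ 2 + 2) (by positivity)
  have hD2 : ∀ j, 2 * K0 ^ 2 + 2 ≤ D j := fun j => le_trans
    (le_add_of_nonneg_right (by positivity)) (hD j).1
  have hD3 : ∀ j, 2 ≤ D j := fun j => le_trans (le_add_of_nonneg_left (by positivity)) (hD2 j)
  obtain ⟨C, hCd⟩ : ∃ C, C = 3 + 128 * D m := ⟨_, rfl⟩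
  have hC : 3 ≤ C := by linarith [hD3 m]
  obtain ⟨Bs, hBs0, hBs⟩ : ∃ Bs : ℝ, 0 ≤ Bs ∧ ∀ j ≤ m, Bp j (Cp j) C ≤ Bs :=
    ⟨_, Finset.sum_nonneg fun i _ => hB0 i (Cp i) C, fun j hj =>
      le_sum_range (f := fun j => Bp j (Cp j) C) (fun i => hB0 i _ _) hj⟩
  refine ⟨C, min (1 / (8 * C)) (1 / (Bs + 1)), by linarith, lt_min (by positivity) (by positivity),
    ?_⟩
  intro e b h he0 xs hxs hx0 del hdel
  have he := h.1
  have heC : e * C ≤ 1 / 8 := by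
    have := (le_div_iff₀ (by positivity)).1 (he0.trans (min_le_left _ _))
    linarith
  have heB : e * Bs ≤ 1 := by
    have := (le_div_iff₀ (by positivity)).1 (he0.trans (min_le_right _ _))
    linarith
  have hx1 : xs ≤ 1 / 4 := hx0.trans (min_le_right _ _)
  obtain ⟨N, Λ, hN, hΛ, hF⟩ := far_sol hfar h hm hxs (hx0.trans (min_le_left _ _)) hx1
    (by linarith : 1 ≤ C) heC
  refine ⟨min (1 / (Λ + 1)) (min (del / (N + 1)) (xs ^ 2 / (N + 1))),
    lt_min (by positivity) (lt_min (by positivity) (by positivity)), ?_⟩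
  intro t U ht hT hU hP hJ hη hnear
  have T1 : t * (Λ + 1) ≤ 1 := (le_div_iff₀ (by positivity)).1 (hT.trans (min_le_left _ _))
  have T2 : t * (N + 1) ≤ del :=
    (le_div_iff₀ (by positivity)).1 (hT.trans ((min_le_right _ _).trans (min_le_left _ _)))
  have T3 : t * (N + 1) ≤ xs ^ 2 :=
    (le_div_iff₀ (by positivity)).1 (hT.trans ((min_le_right _ _).trans (min_le_right _ _)))
  have hP' : ∀ s ∈ Icc 0 t, ∀ x ∈ Icc (0 : ℝ) 1, U s x 1 = cj U 0 1 s x := hP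
  have sub : ∀ {y : ℝ}, y ∈ Icc xs 1 → y ∈ Icc (0 : ℝ) 1 := fun hy => ⟨hxs.le.trans hy.1, hy.2⟩
  set Q : ℕ → ℝ := fun i => if i = 0 then 2 * xs ^ 2 else |K0| + 1 with hQ
  set G : Fin (m + 1) ⊕ Fin 2 → ℝ → ℝ → ℝ := fun i r y =>
    Sum.elim (fun j : Fin (m + 1) => F0 j e U r y - (D j + (Λ + 1) * r))
      (fun i : Fin 2 => |cj U 0 i r (max y xs)| - Q i) i with hG
  -- consequences of the bounds at one time
  have st : ∀ r ∈ Icc 0 t, (∀ i y, 0 ≤ y → y ≤ 1 → G i r y ≤ 0) →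
      (∀ y ∈ Icc (0 : ℝ) 1, ∀ j ≤ m,
        (1 ≤ j → wA U r y ^ j * |cj U 0 (j + 1) r y| ≤ 3 + 2 * D j) ∧
        wA U r y ^ j * |cj U 0 (j + 1) r y| ≤ C ∧ wA U r y ^ (j + 1) * |cj U 2 j r y| ≤ C * e) ∧
      ∀ y ∈ Icc xs 1, |U r y 0| ≤ 2 * xs ^ 2 := by
    intro r hr hg
    refine ⟨fun y hy j hj => ?_, fun y hy => ?_⟩
    · have a0 : F0 j e U r y - (D j + (Λ + 1) * r) ≤ 0 := hg (.inl ⟨j, by omega⟩) y hy.1 hy.2
      have a1 : (Λ + 1) * r ≤ (Λ + 1) * t := by gcongr; exact hr.2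
      obtain ⟨a2, a3⟩ := of_PhJ he (wA_pos hU hr hy) (hD3 j)
        (show F0 j e U r y ≤ D j + 1 by linarith)
      have a4 := hmono hj
      refine ⟨a2, ?_, a3.trans (by gcongr; linarith)⟩
      rcases Nat.eq_zero_or_pos j with rfl | hj0
      · rw [pow_zero, one_mul]
        rcases le_total y xs with a | a
        · have := (hnear r hr y ⟨hy.1, a⟩).2
          rw [hP' r hr y hy] at this
          exact abs_le.2 ⟨by linarith [(abs_le.1 this).1], by linarith [(abs_le.1 this).2]⟩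
        · have a5 : |cj U 0 1 r (max y xs)| - (|K0| + 1) ≤ 0 := hg (.inr 1) y hy.1 hy.2
          rw [max_eq_left a] at a5
          have := hD2 m
          nlinarith [sq_nonneg (|K0| - 1), sq_abs K0]
      · exact (a2 hj0).trans (by linarith [hD3 j])
    · have a5 : |cj U 0 0 r (max y xs)| - 2 * xs ^ 2 ≤ 0 := hg (.inr 0) y (sub hy).1 hy.2
      rw [max_eq_left hy.1, cj_zero] at a5
      linarith
  -- closeness to the initial data
  have cl : ∀ s ∈ Icc 0 t, (∀ i r y, 0 ≤ r → r ≤ s → 0 ≤ y → y ≤ 1 → G i r y ≤ 0) →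
      ∀ y ∈ Icc xs 1, (∀ j, j + 1 ≤ m → |cj U 0 j s y - cj U 0 j 0 y| ≤ N * t) ∧
        ∀ j, j + 2 ≤ m → |cj U 2 j s y - cj U 2 j 0 y| ≤ N * t := by
    intro s hs hg y hy
    have a0 : ∀ r ∈ Icc 0 s, r ∈ Icc 0 t := fun r hr => ⟨hr.1, hr.2.trans hs.2⟩
    have a1 := fun r (hr : r ∈ Icc 0 s) => st r (a0 r hr) fun i z => hg i r z hr.1 hr.2
    have a2 := fun r (hr : r ∈ Icc 0 s) => hF t U ht hU hP' r (a0 r hr) y hy ((a1 r hr).2 y hy)
      fun j hj => ((a1 r hr).1 y (sub hy) j hj).2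
    have a3 : ∀ i j, (∀ r ∈ Icc 0 s, |ct (sys h) U i j r y| ≤ N) →
        |cj U i j s y - cj U i j 0 y| ≤ N * t := fun i j hb => by
      have := norm_image_sub_le_of_norm_deriv_le_segment' (f := fun r => cj U i j r y) (C := N)
        (fun r hr => ((jet_sol ht hU i).dt j r y (a0 r hr) (sub hy)).mono
          (Icc_subset_Icc_right hs.2)) (fun r hr => hb r ⟨hr.1, hr.2.le⟩) s ⟨hs.1, le_rfl⟩
      exact this.trans (by gcongr; linarith [hs.2])
    exact ⟨fun j hj => a3 0 j fun r hr => (a2 r hr).2.1 j hj,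
      fun j hj => a3 2 j fun r hr => (a2 r hr).2.2.1 j hj⟩
  have h0t : (0 : ℝ) ∈ Icc 0 t := ⟨le_rfl, ht.le⟩
  have mx : ∀ {y : ℝ}, y ≤ 1 → max y xs ∈ Icc xs 1 := fun hy =>
    ⟨le_max_right _ _, max_le hy (by linarith)⟩
  have ini : ∀ i : Fin 2, ∀ y ∈ Icc xs 1, |cj U 0 i 0 y| ≤ Q i - xs ^ 2 := by
    intro i y hy
    fin_cases i
    · have := hη y hy
      show |U 0 y 0| ≤ 2 * xs ^ 2 - xs ^ 2
      linarith
    · have := (hJ y (sub hy) 0 (by omega)).1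
      rw [pow_zero, one_mul] at this
      show |cj U 0 1 0 y| ≤ |K0| + 1 - xs ^ 2
      have h1 : |cj U 0 1 0 y| ≤ |K0| := this.trans (le_abs_self _)
      nlinarith
  have main := MP.neg_of_no_touch (l := fun _ => 0) (r := fun _ => 1) (t0 := 0) (t1 := t)
    continuousOn_const continuousOn_const G ?_ ?_ ?_ fun _ _ _ => zero_lt_one
  · intro s hs
    have hg : ∀ i r y, 0 ≤ r → r ≤ s → 0 ≤ y → y ≤ 1 → G i r y ≤ 0 := fun i r y a c d f =>
      (main i r y a (c.trans hs.2) d f).le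
    have a1 := st s hs fun i y => hg i s y hs.1 le_rfl
    refine ⟨fun x hx j hj => (a1.1 x hx j hj).2, fun x hx => ⟨(hF t U ht hU hP' s hs x hx
      (a1.2 x hx) fun j hj => (a1.1 x (sub hx) j hj).2).1, fun j hj => ?_⟩⟩
    have a2 := cl s hs hg x hx
    exact ⟨(a2.1 j (by omega)).trans (by linarith), (a2.2 j hj).trans (by linarith)⟩
  · have sb : MP.Reg (fun _ => 0) (fun _ => 1) 0 t ⊆ Icc 0 t ×ˢ Icc (0 : ℝ) 1 :=
      fun p hp => ⟨⟨hp.1, hp.2.1⟩, hp.2.2⟩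
    rintro (j | i)
    · exact ((cont_F0 ht hU j).mono sb).sub (by fun_prop)
    · refine ContinuousOn.sub (ContinuousOn.abs ?_) continuousOn_const
      exact ((jet_sol ht hU 0).cu i).comp (f := fun p : ℝ × ℝ => (p.1, max p.2 xs)) (by fun_prop)
        fun p hp => ⟨(sb hp).1, sub (mx (sb hp).2.2)⟩
  · rintro (j | i) x a c
    · have a1 := hJ x ⟨a, c⟩ j (by omega)
      have a2 : F0 j e U 0 x ≤ 2 * K0 ^ 2 := PhJ_le he (wA_pos hU h0t ⟨a, c⟩) a1.1 a1.2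
      show F0 j e U 0 x - (D j + (Λ + 1) * 0) < 0
      linarith [hD2 j]
    · show |cj U 0 i 0 (max x xs)| - Q i < 0
      linarith [ini i _ (mx c), pow_pos hxs 2]
  · rintro (j | i) s x s0 s1 a c hz hg
    · have hs : s ∈ Icc 0 t := ⟨s0.le, s1⟩
      have hx : x ∈ Icc (0 : ℝ) 1 := ⟨a, c⟩
      have hj : (j : ℕ) ≤ m := by omega
      have a1 := st s hs fun i y => hg i s y hs.1 le_rfl
      have hz' : F0 j e U s x - (D j + (Λ + 1) * s) = 0 := hz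
      have tb := fun Z σ => touch_both (Z := Z) (σ := σ)
        (f := fun r y => F0 j e U r y - (D j + (Λ + 1) * r)) s0 hx
        (past_of ((hd_Ft ht hU j hs hx).sub
          (((hasDerivWithinAt_id s _).const_mul (Λ + 1)).const_add (D j))) s0 s1)
        (fun y hy => (hd_Fx ht hU j hs hy).sub_const _) (hd_Fxx ht hU j hs hx) hz'
        fun r y u v w z => hg (.inl j) r y u v w z
      rcases le_total x xs with d | d
      · obtain ⟨Z, σ, z0, z1, z2⟩ := hB j (Cp j) C e b h t U ht hU hP' (hD j).2.1 (by linarith) heC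
          s hs x ⟨a, d.trans hx1⟩ (hnear s hs x ⟨a, d⟩).1 (hnear s hs x ⟨a, d⟩).2
          (fun i u v => ((a1.1 x hx i (by omega)).1 u).trans ((hD j).2.2 i v))
          fun i hi => ⟨fun _ => (a1.1 x hx i (by omega)).2.1, (a1.1 x hx i (by omega)).2.2⟩
        have z3 := tb Z σ z0 z1 fun h1 => absurd h1 (by linarith)
        have z4 : 0 ≤ wA U s x * (Ft (sys h) j e U s x - Z * Fxx j e U s x - σ * Fx j e U s x) :=
          mul_nonneg (wA_pos hU hs hx).le (by linarith)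
        have z5 := mul_le_mul_of_nonneg_left (hBs j hj) he.le
        have z6 : 0 ≤ (Λ + 1) * s := by positivity
        linarith [(hD j).1, sq_nonneg K0]
      · obtain ⟨Z, σ, z0, z1, z2⟩ := (hF t U ht hU hP' s hs x ⟨d, c⟩ (a1.2 x ⟨d, c⟩)
          fun j hj => (a1.1 x hx j hj).2).2.2.2 j hj
        have z3 := tb Z σ z0 (fun h1 => absurd h1 (by linarith)) z1
        linarith
    · have a1 := (cl s ⟨s0.le, s1⟩ hg _ (mx c)).1 i (by omega)
      have a2 := ab_add a1 (ini i _ (mx c))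
      rw [sub_add_cancel] at a2
      have hz' : |cj U 0 i s (max x xs)| - Q i = 0 := hz
      linarith

end Crest.Agent.N207.S.Rg
end

-- ▼ part N207/S/In/Far
section

/-!
Row 207 (S0320), block FAR: the differentiated system away from the tip (proof).
-/

set_option autoImplicit false

open Set
open scoped ContDiff

namespace Crest.Agent.N207.S.Rg

noncomputable section

section gen
variable {X : Type} [NormedAddCommGroup X] [NormedSpace ℝ X]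

theorem vchain_iter {g : ℕ → ℝ → X}
    (h : ∀ j x, x ∈ Icc (0 : ℝ) 1 → HasDerivWithinAt (g j) (g (j + 1) x) (Icc 0 1) x) :
    ∀ j, ∀ x ∈ Icc (0 : ℝ) 1, Ex.jet j (g 0) x = g j x := by
  intro j
  induction j with
  | zero => intro x _; rfl
  | succ j ih =>
    intro x hx
    unfold Ex.jet at *
    rw [iteratedDerivWithin_succ, derivWithin_congr ih (ih x hx)]
    exact (h j x hx).derivWithin (uniqueDiffOn_Icc zero_lt_one x hx)

theorem vchain_jet {u : ℝ → X} (hu : ContDiffOn ℝ ∞ u (Icc 0 1)) (j : ℕ) {x : ℝ}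
    (hx : x ∈ Icc (0 : ℝ) 1) : HasDerivWithinAt (Ex.jet j u) (Ex.jet (j + 1) u x) (Icc 0 1) x := by
  have := (hu.differentiableOn_iteratedDerivWithin (m := j)
    (by exact_mod_cast (ENat.natCast_lt_top j)) (uniqueDiffOn_Icc zero_lt_one) x
    hx).hasDerivWithinAt
  rwa [← iteratedDerivWithin_succ] at this

theorem cd_jet1 {u : ℝ → X} (hu : ContDiffOn ℝ ∞ u (Icc 0 1)) :
    ContDiffOn ℝ ∞ (Ex.jet 1 u) (Icc 0 1) := by
  have := hu.derivWithin (uniqueDiffOn_Icc zero_lt_one) (m := ∞) le_rfl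
  unfold Ex.jet
  rwa [iteratedDerivWithin_one]

theorem comp_bd {F : X → ℝ} {Ω K : Set X} (hΩ : IsOpen Ω) (hF : ContDiffOn ℝ ∞ F Ω)
    (hK : IsCompact K) (hKΩ : K ⊆ Ω) (n : ℕ) (D : ℝ) : ∃ C : ℝ, 0 ≤ C ∧ ∀ G : ℝ → X,
      ContDiffOn ℝ ∞ G (Icc 0 1) → MapsTo G (Icc 0 1) Ω → ∀ x ∈ Icc (0 : ℝ) 1, G x ∈ K →
      (∀ l, 1 ≤ l → l ≤ n → ‖Ex.jet l G x‖ ≤ D) →
      ∀ l ≤ n, |Ex.jet l (fun y => F (G y)) x| ≤ C := by
  have h1 : ∀ i : ℕ, ∃ C : ℝ, ∀ z ∈ K, ‖iteratedFDerivWithin ℝ i F Ω z‖ ≤ C := fun i =>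
    hK.exists_bound_of_continuousOn ((hF.continuousOn_iteratedFDerivWithin
      (by exact_mod_cast le_top) hΩ.uniqueDiffOn).mono hKΩ)
  choose c hc using h1
  refine ⟨n.factorial * (∑ i ∈ Finset.range (n + 1), |c i|) * max D 1 ^ n, by positivity, ?_⟩
  intro G hG hm x hx hxK hD l hl
  have := norm_iteratedFDerivWithin_comp_le (n := l) hF hG (by exact_mod_cast le_top)
    hΩ.uniqueDiffOn (uniqueDiffOn_Icc zero_lt_one) hm hx
    (C := ∑ i ∈ Finset.range (n + 1), |c i|) (D := max D 1)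
    (fun i hi => ((hc i _ hxK).trans (le_abs_self _)).trans
      (Finset.single_le_sum (f := fun i => |c i|) (fun _ _ => abs_nonneg _)
        (Finset.mem_range.2 (by omega))))
    (fun i h1 h2 => by
      rw [norm_iteratedFDerivWithin_eq_norm_iteratedDerivWithin]
      exact ((hD i h1 (h2.trans hl)).trans (le_max_left _ _)).trans
        (le_self_pow₀ (le_max_right _ _) (by omega)))
  rw [norm_iteratedFDerivWithin_eq_norm_iteratedDerivWithin, Real.norm_eq_abs] at this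
  refine this.trans ?_
  have a1 : (l.factorial : ℝ) ≤ n.factorial := by exact_mod_cast Nat.factorial_le hl
  have a2 : max D 1 ^ l ≤ max D 1 ^ n := pow_le_pow_right₀ (le_max_right _ _) hl
  gcongr

end gen

theorem lmul_one0 {M M' : ℝ} {n : ℕ} {a b : ℕ → ℝ} (hM' : 0 ≤ M') (ha : ∀ i ≤ n, |a i| ≤ M)
    (hb : ∀ i < n, |b i| ≤ M') : |lmul a b n - a 0 * b n| ≤ 2 ^ n * (M * M') := by
  have hM : 0 ≤ M := (abs_nonneg _).trans (ha 0 n.zero_le)
  rcases Nat.eq_zero_or_pos n with rfl | hn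
  · simp only [lmul_zero, sub_self, abs_zero]; positivity
  · have := (Top.mul (ρ := 1) zero_le_one hn (Top.of_le fun i hi => by simpa using ha i hi)
      (Top.of_low hM' fun i hi => by simpa using hb i hi)).top
    simpa using this

theorem norm_E3 {v : Ga.E3} {M : ℝ} (h : ∀ i, |v i| ≤ M) : ‖v‖ ≤ 3 * M := by
  have hM : 0 ≤ M := (abs_nonneg _).trans (h 0)
  rw [EuclideanSpace.norm_eq]
  refine Real.sqrt_le_iff.2 ⟨by positivity, ?_⟩
  simp only [Fin.sum_univ_three, Real.norm_eq_abs]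
  have a0 := pow_le_pow_left₀ (abs_nonneg _) (h 0) 2
  have a1 := pow_le_pow_left₀ (abs_nonneg _) (h 1) 2
  have a2 := pow_le_pow_left₀ (abs_nonneg _) (h 2) 2
  nlinarith

/-- jets of `μ` -/
def muS (x : ℝ) (i : ℕ) : ℝ :=
  if i = 0 then Ex.mu x else if i = 1 then 1 - 2 * x else if i = 2 then -2 else 0

theorem chain_mu : Chain (Icc 0 1) fun j x => muS x j := by
  intro j x _
  unfold muS
  rcases j with _ | _ | _ | j
  · simpa using (Ex.hasDerivAt_mu x).hasDerivWithinAt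
  · simpa using (((hasDerivAt_id' x).const_mul 2).const_sub 1).hasDerivWithinAt
  · simpa using hasDerivWithinAt_const x (Icc (0 : ℝ) 1) (-2 : ℝ)
  · simpa using hasDerivWithinAt_const x (Icc (0 : ℝ) 1) (0 : ℝ)

theorem muS_le {x : ℝ} (hx : x ∈ Icc (0 : ℝ) 1) (i : ℕ) : |muS x i| ≤ 2 := by
  unfold muS
  split_ifs
  · rw [abs_of_nonneg (Ex.mu_nonneg hx)]; linarith [Ex.mu_le (x := x)]
  · exact abs_le.2 ⟨by linarith [hx.2], by linarith [hx.1]⟩
  · norm_num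
  · norm_num

variable (S : Ex.Sys Ga.E3)

/-- the part of the derivative of `Ψ` without second derivatives -/
def psA (i : Fin 3) (z : (ℝ × Ga.E3) × Ga.E3) : ℝ := fderiv ℝ S.Psi z ((1, z.2), 0) i

/-- the coefficient of the second derivatives -/
def psB (i m : Fin 3) (z : (ℝ × Ga.E3) × Ga.E3) : ℝ :=
  fderiv ℝ S.Psi z (0, EuclideanSpace.single m 1) i

def psH (i m : Fin 3) (z : (ℝ × Ga.E3) × Ga.E3) : ℝ :=
  psB S i m z + (if i = m then 1 else 0) * (S.a z.1 * S.b)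

theorem om_open : IsOpen (S.Om ×ˢ (univ : Set Ga.E3)) := S.isOpen.prod isOpen_univ

theorem cd_fd : ContDiffOn ℝ ∞ (fderiv ℝ S.Psi) (S.Om ×ˢ univ) :=
  S.hPsi.fderiv_of_isOpen (om_open S) le_rfl

theorem cd_psA (i : Fin 3) : ContDiffOn ℝ ∞ (psA S i) (S.Om ×ˢ univ) :=
  (EuclideanSpace.proj i : Ga.E3 →L[ℝ] ℝ).contDiff.comp_contDiffOn
    ((cd_fd S).clm_apply (by fun_prop))

theorem cd_psB (i m : Fin 3) : ContDiffOn ℝ ∞ (psB S i m) (S.Om ×ˢ univ) :=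
  (EuclideanSpace.proj i : Ga.E3 →L[ℝ] ℝ).contDiff.comp_contDiffOn
    ((cd_fd S).clm_apply contDiffOn_const)

theorem cd_psH (i m : Fin 3) : ContDiffOn ℝ ∞ (psH S i m) (S.Om ×ˢ univ) :=
  (cd_psB S i m).add (contDiffOn_const.mul
    ((S.ha.comp contDiffOn_fst fun _ hz => hz.1).mul contDiffOn_const))

theorem psi_at {z : (ℝ × Ga.E3) × Ga.E3} (hz : z.1 ∈ S.Om) :
    HasFDerivAt S.Psi (fderiv ℝ S.Psi z) z :=
  ((S.hPsi.differentiableOn (by simp)).differentiableAt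
    ((om_open S).mem_nhds ⟨hz, trivial⟩)).hasFDerivAt

theorem psH_one (i m : Fin 3) {u p : Ga.E3} (h : ((1 : ℝ), u) ∈ S.Om) :
    psH S i m ((1, u), p) = 0 := by
  have h1 : HasDerivAt (fun s : ℝ => ((((1 : ℝ), u), p + s • EuclideanSpace.single m (1 : ℝ)) :
      (ℝ × Ga.E3) × Ga.E3)) (0, EuclideanSpace.single m 1) 0 := by
    refine (hasDerivAt_const _ _).prodMk ?_
    simpa using ((hasDerivAt_id (0 : ℝ)).smul_const (EuclideanSpace.single m (1 : ℝ))).const_add p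
  have h2 := (psi_at S (z := ((1, u), p + (0 : ℝ) • EuclideanSpace.single m (1 : ℝ)))
    h).comp_hasDerivAt (0 : ℝ) h1
  have h3 : HasDerivAt (fun s : ℝ => S.Psi ((1, u), 0) -
      (S.a (1, u) * S.b) • (p + s • EuclideanSpace.single m (1 : ℝ)))
      (-((S.a (1, u) * S.b) • EuclideanSpace.single m (1 : ℝ))) 0 := by
    simpa using ((((hasDerivAt_id (0 : ℝ)).smul_const
      (EuclideanSpace.single m (1 : ℝ))).const_add p).const_smul (S.a (1, u) * S.b)).const_sub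
        (S.Psi ((1, u), 0))
  have h4 := h2.unique (h3.congr_of_eventuallyEq
    (Filter.Eventually.of_forall fun s => S.pole1 u _ h))
  simp only [zero_smul, add_zero] at h4
  simp only [psH, psB, h4]
  by_cases him : i = m <;> simp [him]

theorem psH_bd {K0 : Set (ℝ × Ga.E3)} (hK : IsCompact K0) (hKΩ : K0 ⊆ S.Om)
    (hs : ∀ x u, (x, u) ∈ K0 → 2 / 3 ≤ x → ∀ y ∈ Icc x 1, (y, u) ∈ K0) {xs : ℝ} (hxs : 0 < xs)
    (D : ℝ) (i m : Fin 3) : ∃ L : ℝ, 0 ≤ L ∧ ∀ x u p, (x, u) ∈ K0 → x ∈ Icc xs 1 → ‖p‖ ≤ D →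
      |psH S i m ((x, u), p)| ≤ L * Ex.mu x := by
  have hK1 : IsCompact (K0 ×ˢ Metric.closedBall (0 : Ga.E3) D) :=
    hK.prod (isCompact_closedBall _ _)
  have hsub : K0 ×ˢ Metric.closedBall (0 : Ga.E3) D ⊆ S.Om ×ˢ univ :=
    fun z hz => ⟨hKΩ hz.1, trivial⟩
  obtain ⟨c0, h0⟩ := hK1.exists_bound_of_continuousOn ((cd_psH S i m).continuousOn.mono hsub)
  obtain ⟨c1, h1⟩ := hK1.exists_bound_of_continuousOn
    ((((cd_psH S i m).fderiv_of_isOpen (m := ∞) (om_open S) le_rfl).continuousOn.clm_apply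
      (continuousOn_const (c := (((1 : ℝ), (0 : Ga.E3)), (0 : Ga.E3))))).mono hsub)
  refine ⟨(3 * |c0| + |c1|) / xs, by positivity, fun x u p hx hx1 hp => ?_⟩
  have hp' : p ∈ Metric.closedBall (0 : Ga.E3) D := by simpa using hp
  have hb : |psH S i m ((x, u), p)| ≤ (3 * |c0| + |c1|) * (1 - x) := by
    rcases le_total x (2 / 3) with h | h
    · have := (h0 ((x, u), p) ⟨hx, hp'⟩).trans (le_abs_self _)
      rw [Real.norm_eq_abs] at this
      nlinarith [abs_nonneg c0, abs_nonneg c1]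
    · have h2 := Convex.norm_image_sub_le_of_norm_hasDerivWithin_le
        (f := fun y => psH S i m ((y, u), p))
        (f' := fun y => fderiv ℝ (psH S i m) ((y, u), p) ((1, 0), 0)) (C := |c1|) (s := Icc x 1)
        (fun y hy => by
          have a1 : HasFDerivAt (psH S i m) (fderiv ℝ (psH S i m) ((y, u), p)) ((y, u), p) :=
            (((cd_psH S i m).differentiableOn (by simp)).differentiableAt
              ((om_open S).mem_nhds ⟨hKΩ (hs x u hx h y hy), trivial⟩)).hasFDerivAt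
          have a2 : HasDerivAt (fun y : ℝ => (((y, u), p) : (ℝ × Ga.E3) × Ga.E3)) ((1, 0), 0) y :=
            ((hasDerivAt_id y).prodMk (hasDerivAt_const _ _)).prodMk (hasDerivAt_const _ _)
          exact (a1.comp_hasDerivAt y a2).hasDerivWithinAt)
        (fun y hy => (h1 ((y, u), p) ⟨hs x u hx h y hy, hp'⟩).trans (le_abs_self _))
        (convex_Icc _ _) ⟨hx1.2, le_rfl⟩ ⟨le_rfl, hx1.2⟩
      simp only [psH_one S i m (hKΩ (hs x u hx h 1 ⟨hx1.2, le_rfl⟩)), sub_zero,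
        Real.norm_eq_abs] at h2
      rw [abs_of_nonpos (by linarith [hx1.2] : x - 1 ≤ 0)] at h2
      nlinarith [abs_nonneg c0, abs_nonneg c1, hx1.2]
  refine hb.trans ?_
  rw [Ex.mu, ← mul_assoc]
  refine mul_le_mul_of_nonneg_right ?_ (by linarith [hx1.2])
  rw [div_mul_eq_mul_div, le_div_iff₀ hxs]
  exact mul_le_mul_of_nonneg_left hx1.1 (by positivity)

variable {S}

theorem jet_G0 {u : ℝ → Ga.E3} (hu : ContDiffOn ℝ ∞ u (Icc 0 1)) (l : ℕ) {x : ℝ}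
    (hx : x ∈ Icc (0 : ℝ) 1) :
    Ex.jet l (fun y => ((y, u y) : ℝ × Ga.E3)) x = (idS x l, Ex.jet l u x) :=
  vchain_iter (g := fun l y => ((idS y l, Ex.jet l u y) : ℝ × Ga.E3))
    (fun j x hx => (chain_id j x hx).prodMk (vchain_jet hu j hx)) l x hx

theorem jet_G {u : ℝ → Ga.E3} (hu : ContDiffOn ℝ ∞ u (Icc 0 1)) (l : ℕ) {x : ℝ}
    (hx : x ∈ Icc (0 : ℝ) 1) :
    Ex.jet l (fun y => (((y, u y), Ex.jet 1 u y) : (ℝ × Ga.E3) × Ga.E3)) x =
      ((idS x l, Ex.jet l u x), Ex.jet (l + 1) u x) :=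
  vchain_iter (g := fun l y => (((idS y l, Ex.jet l u y), Ex.jet (l + 1) u y) :
    (ℝ × Ga.E3) × Ga.E3)) (fun j x hx => ((chain_id j x hx).prodMk (vchain_jet hu j hx)).prodMk
      (vchain_jet hu (j + 1) hx)) l x hx

theorem idS_le {x : ℝ} {l : ℕ} (hl : 1 ≤ l) : |idS x l| ≤ 1 := by
  unfold idS; split_ifs <;> first | omega | simp

/-- the jets of `Ψ ∘ G`. -/
theorem psi_jet {u : ℝ → Ga.E3} (hu : ContDiffOn ℝ ∞ u (Icc 0 1))
    (hm : ∀ y ∈ Icc (0 : ℝ) 1, (y, u y) ∈ S.Om) (i : Fin 3) (n : ℕ) {x : ℝ}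
    (hx : x ∈ Icc (0 : ℝ) 1) :
    Ex.jet (n + 1) (fun y => S.Psi ((y, u y), Ex.jet 1 u y) i) x =
      Ex.jet n (fun y => psA S i ((y, u y), Ex.jet 1 u y)) x +
      ∑ m, lmul (fun l => Ex.jet l (fun y => psB S i m ((y, u y), Ex.jet 1 u y)) x)
        (fun l => Ex.jet (l + 2) (fun y => u y m) x) n := by
  have hI := uniqueDiffOn_Icc (zero_lt_one (α := ℝ))
  have hG : ContDiffOn ℝ ∞ (fun y => (((y, u y), Ex.jet 1 u y) : (ℝ × Ga.E3) × Ga.E3))
      (Icc 0 1) := (contDiffOn_id.prodMk hu).prodMk (cd_jet1 hu)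
  have hM : MapsTo (fun y => (((y, u y), Ex.jet 1 u y) : (ℝ × Ga.E3) × Ga.E3)) (Icc 0 1)
      (S.Om ×ˢ univ) := fun y hy => ⟨hm y hy, trivial⟩
  have c1 := chain_of_contDiffOn hI
    ((EuclideanSpace.proj i : Ga.E3 →L[ℝ] ℝ).contDiff.comp_contDiffOn (S.hPsi.comp hG hM))
  have c2 := chain_of_contDiffOn hI ((cd_psA S i).comp hG hM)
  have c3 := fun m => (chain_of_contDiffOn hI ((cd_psB S i m).comp hG hM)).mul
    (chain_of_contDiffOn hI
      ((EuclideanSpace.proj m : Ga.E3 →L[ℝ] ℝ).contDiff.comp_contDiffOn hu)).shift.shift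
  have := c1.shift.unique hI (c2.add (((c3 0).add (c3 1)).add (c3 2))) (fun y hy => by
    have a1 : HasDerivWithinAt (fun y => (((y, u y), Ex.jet 1 u y) : (ℝ × Ga.E3) × Ga.E3))
        ((1, Ex.jet 1 u y), Ex.jet 2 u y) (Icc 0 1) y :=
      ((hasDerivWithinAt_id _ _).prodMk (vchain_jet hu 0 hy)).prodMk (vchain_jet hu 1 hy)
    have a2 := (EuclideanSpace.proj i : Ga.E3 →L[ℝ] ℝ).hasFDerivAt.comp_hasDerivWithinAt y
      ((psi_at S (z := ((y, u y), Ex.jet 1 u y)) (hm y hy)).comp_hasDerivWithinAt y a1)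
    refine ((hI y hy).eq_deriv _ (c1 0 y hy) a2).trans ?_
    have a3 : (((1, Ex.jet 1 u y), Ex.jet 2 u y) : (ℝ × Ga.E3) × Ga.E3) =
        ((1, Ex.jet 1 u y), 0) + (Ex.jet 2 u y 0 • (0, EuclideanSpace.single 0 1) +
          Ex.jet 2 u y 1 • (0, EuclideanSpace.single 1 1) +
          Ex.jet 2 u y 2 • (0, EuclideanSpace.single 2 1)) := by
      refine Prod.ext (by simp) ?_
      ext k
      fin_cases k <;> simp
    rw [a3]
    simp only [map_add, map_smul, smul_eq_mul, lmul_zero, Ga.jet_apply hu 2 hy]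
    change _ = psA S i ((y, u y), Ex.jet 1 u y) +
      (psB S i 0 ((y, u y), Ex.jet 1 u y) * Ex.jet 2 (fun y => u y 0) y +
        psB S i 1 ((y, u y), Ex.jet 1 u y) * Ex.jet 2 (fun y => u y 1) y +
        psB S i 2 ((y, u y), Ex.jet 1 u y) * Ex.jet 2 (fun y => u y 2) y)
    simp only [psA, psB, mul_comm (Ex.jet 2 _ y)]
    rfl) n x hx
  rw [Fin.sum_univ_three]
  exact this

theorem far : FarStmt := by
  intro S K0 hK hKΩ hs xs M j hxs
  have hI := uniqueDiffOn_Icc (zero_lt_one (α := ℝ))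
  obtain ⟨D, hD⟩ : ∃ D, D = 3 * |M| + 1 := ⟨_, rfl⟩
  have hD1 : 1 ≤ D := by rw [hD]; linarith [abs_nonneg M]
  have hK1 : IsCompact (K0 ×ˢ Metric.closedBall (0 : Ga.E3) D) :=
    hK.prod (isCompact_closedBall _ _)
  have hsub : K0 ×ˢ Metric.closedBall (0 : Ga.E3) D ⊆ S.Om ×ˢ univ :=
    fun z hz => ⟨hKΩ hz.1, trivial⟩
  obtain ⟨ca, hca0, hca⟩ := comp_bd S.isOpen S.ha hK hKΩ (max j 1) D
  obtain ⟨ci, hci⟩ := hK.exists_bound_of_continuousOn
    ((S.ha.continuousOn.mono hKΩ).inv₀ fun z hz => (S.apos z (hKΩ hz)).ne')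
  obtain ⟨c0, hc0⟩ := hK1.exists_bound_of_continuousOn (S.hPsi.continuousOn.mono hsub)
  choose cA hcA0 hcA using fun i => comp_bd (om_open S) (cd_psA S i) hK1 hsub (j - 1) D
  choose cB hcB0 hcB using fun i m => comp_bd (om_open S) (cd_psB S i m) hK1 hsub (j - 1) D
  choose L hL0 hL using fun i m => psH_bd S hK hKΩ hs hxs D i m
  obtain ⟨A, hA⟩ : ∃ A, A = ∑ i, (cA i + ∑ m, (2 ^ j * (cB i m * |M|) + L i m)) := ⟨_, rfl⟩
  have hAi : ∀ i, cA i + ∑ m, (2 ^ j * (cB i m * |M|) + L i m) ≤ A := fun i => by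
    rw [hA]
    exact Finset.single_le_sum (f := fun i => cA i + ∑ m, (2 ^ j * (cB i m * |M|) + L i m))
      (fun i _ => add_nonneg (hcA0 i) (Finset.sum_nonneg fun m _ => by
        have := hcB0 i m
        have := hL0 i m
        positivity)) (Finset.mem_univ i)
  have hA0 : 0 ≤ A := le_trans (add_nonneg (hcA0 0) (Finset.sum_nonneg fun m _ => by
    have := hcB0 0 m
    have := hL0 0 m
    positivity)) (hAi 0)
  obtain ⟨R, hR⟩ : ∃ R, R = 2 ^ j * (2 ^ j * (ca * 2) * |M|) + |c0| + ca * S.b * |M| := ⟨_, rfl⟩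
  have hR0 : 0 ≤ R := by rw [hR]; positivity
  refine ⟨1 + |ci| + ca + j * ca + A + R, by
    have : 0 ≤ (j : ℝ) * ca := by positivity
    linarith [abs_nonneg ci], ?_⟩
  intro t0 t1 U hU t ht x hx hxK hM
  have hu := Ga.sol_slice hU ht
  have hx' : x ∈ Icc (0 : ℝ) 1 := ⟨hxs.le.trans hx.1, hx.2⟩
  have hm := hU.mem t ht
  have hjc : 0 ≤ (j : ℝ) * ca := by positivity
  have hn : ∀ l ≤ max j 1, ‖Ex.jet l (U t) x‖ ≤ D := fun l hl =>
    (norm_E3 (M := |M|) fun i => by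
      rw [Ga.sol_jet hU l ht hx']; exact (hM i l hl).trans (le_abs_self _)).trans (by linarith)
  have ha := hca (fun y => (y, U t y)) (contDiffOn_id.prodMk hu) hm x hx' hxK fun l h1 h2 => by
    rw [jet_G0 hu l hx', Prod.norm_mk]
    exact max_le ((idS_le h1).trans hD1) (hn l h2)
  have hp : ‖Ex.jet 1 (U t) x‖ ≤ D := hn 1 (le_max_right _ _)
  have hGK : (((x, U t x), Ex.jet 1 (U t) x) : (ℝ × Ga.E3) × Ga.E3) ∈
      K0 ×ˢ Metric.closedBall (0 : Ga.E3) D := ⟨hxK, by simpa using hp⟩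
  have apos := S.apos _ (hKΩ hxK)
  have ha0 : S.a (x, U t x) ≤ ca := (le_abs_self _).trans (ha 0 (Nat.zero_le _))
  refine ⟨?_, by linarith [abs_nonneg ci], fun i => ?_⟩
  · have h1 := ((le_abs_self _).trans (hci _ hxK)).trans (le_abs_self ci)
    simp only [Pi.inv_apply] at h1
    have h2 := mul_le_mul_of_nonneg_right h1 apos.le
    rw [inv_mul_cancel₀ apos.ne'] at h2
    nlinarith
  have hmu := Ex.mu_nonneg hx'
  have hui := chain_of_contDiffOn hI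
    ((EuclideanSpace.proj i : Ga.E3 →L[ℝ] ℝ).contDiff.comp_contDiffOn hu)
  have hG : ContDiffOn ℝ ∞ (fun y => (((y, U t y), Ex.jet 1 (U t) y) : (ℝ × Ga.E3) × Ga.E3))
      (Icc 0 1) := (contDiffOn_id.prodMk hu).prodMk (cd_jet1 hu)
  have hMp : MapsTo (fun y => (((y, U t y), Ex.jet 1 (U t) y) : (ℝ × Ga.E3) × Ga.E3)) (Icc 0 1)
      (S.Om ×ˢ univ) := fun y hy => ⟨hm y hy, trivial⟩
  have c1 := chain_of_contDiffOn hI
    ((EuclideanSpace.proj i : Ga.E3 →L[ℝ] ℝ).contDiff.comp_contDiffOn (S.hPsi.comp hG hMp))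
  have c2 := chain_of_contDiffOn hI (S.ha.comp (contDiffOn_id.prodMk hu) hm)
  have c3 := ((c2.mul chain_mu).mul hui.shift.shift).add c1
  have e1 : Ga.ct S U i j t x =
      lmul (fun l => lmul (fun r => Ex.jet r (fun y => S.a (y, U t y)) x) (fun r => muS x r) l)
        (fun l => Ga.cj U i (l + 2) t x) j +
      Ex.jet j (fun y => S.Psi ((y, U t y), Ex.jet 1 (U t) y) i) x := by
    refine Eq.trans ?_ (c3.iter hI j x hx')
    refine iteratedDerivWithin_congr (fun y hy => ?_) hx'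
    simp only [lmul_zero, Ex.Sys.F, PiLp.add_apply, PiLp.smul_apply, smul_eq_mul,
      Ga.jet_apply hu 2 hy]
    rfl
  have e2 := lmul_two0 (ρ := 1) (M := 2 ^ j * (ca * 2)) (M' := |M|) (n := j)
    (a := fun l => lmul (fun r => Ex.jet r (fun y => S.a (y, U t y)) x) (fun r => muS x r) l)
    (b := fun l => Ga.cj U i (l + 2) t x) zero_le_one (abs_nonneg _)
    (Top.of_le fun l hl => by
      refine (lmul_bd (M := ca) (M' := 2) zero_le_one (fun r hr => ?_) (fun r _ => ?_)).trans ?_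
      · simpa using ha r (by omega)
      · simpa using muS_le hx' r
      · exact mul_le_mul_of_nonneg_right (pow_le_pow_right₀ (by norm_num) hl) (by positivity))
    (fun l hl => by simpa using (hM i (l + 2) (by omega)).trans (le_abs_self _))
  simp only [one_pow, mul_one, lmul_zero, lmul_one] at e2
  have ha1 := ha 1 (le_max_right _ _)
  have s0 := abs_nonneg (Ga.cj U 0 (j + 1) t x)
  have s1 := abs_nonneg (Ga.cj U 1 (j + 1) t x)
  have s2 := abs_nonneg (Ga.cj U 2 (j + 1) t x)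
  have hsum : ∀ m, |Ga.cj U m (j + 1) t x| ≤
      |Ga.cj U 0 (j + 1) t x| + |Ga.cj U 1 (j + 1) t x| + |Ga.cj U 2 (j + 1) t x| := by
    intro m; fin_cases m <;> simp <;> linarith
  generalize |Ga.cj U 0 (j + 1) t x| + |Ga.cj U 1 (j + 1) t x| + |Ga.cj U 2 (j + 1) t x| = Sg
    at hsum ⊢
  have hSg : 0 ≤ Sg := (abs_nonneg _).trans (hsum 0)
  have hmS : 0 ≤ Ex.mu x * Sg := by positivity
  -- the `Ψ` part
  have e3 : |Ex.jet j (fun y => S.Psi ((y, U t y), Ex.jet 1 (U t) y) i) x +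
      S.a (x, U t x) * S.b * Ga.cj U i (j + 1) t x| ≤
      |c0| + ca * S.b * |M| + A * (1 + Ex.mu x * Sg) := by
    rcases j with _ | n
    · have b1 : |S.Psi ((x, U t x), Ex.jet 1 (U t) x) i| ≤ |c0| :=
        ((PiLp.norm_apply_le _ i).trans (hc0 _ hGK)).trans (le_abs_self _)
      have b2 : |S.a (x, U t x) * S.b * Ga.cj U i (0 + 1) t x| ≤ ca * S.b * |M| := by
        rw [abs_mul, abs_of_nonneg (by positivity)]
        exact mul_le_mul (mul_le_mul_of_nonneg_right ha0 (by positivity))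
          ((hM i 1 (le_max_right _ _)).trans (le_abs_self _)) (abs_nonneg _) (by positivity)
      refine (abs_add_le _ _).trans ?_
      have : 0 ≤ A * (1 + Ex.mu x * Sg) := by positivity
      change |S.Psi ((x, U t x), Ex.jet 1 (U t) x) i| + _ ≤ _
      linarith
    · have hGj : ∀ l, 1 ≤ l → l ≤ n + 1 - 1 → ‖Ex.jet l (fun y =>
          (((y, U t y), Ex.jet 1 (U t) y) : (ℝ × Ga.E3) × Ga.E3)) x‖ ≤ D := fun l h1 h2 => by
        rw [jet_G hu l hx', Prod.norm_mk, Prod.norm_mk]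
        exact max_le (max_le ((idS_le h1).trans hD1) (hn l (by omega))) (hn _ (by omega))
      have b1 := hcA i _ hG hMp x hx' hGK hGj n (by omega)
      have b2 : ∀ m, |lmul (fun l => Ex.jet l (fun y => psB S i m ((y, U t y), Ex.jet 1 (U t) y)) x)
          (fun l => Ex.jet (l + 2) (fun y => U t y m) x) n +
          (if i = m then 1 else 0) * (S.a (x, U t x) * S.b) * Ga.cj U m (n + 1 + 1) t x| ≤
          (2 ^ (n + 1) * (cB i m * |M|) + L i m) * (1 + Ex.mu x * Sg) := by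
        intro m
        have d1 := lmul_one0 (M' := |M|) (n := n)
          (b := fun l => Ex.jet (l + 2) (fun y => U t y m) x) (abs_nonneg _)
          (fun l hl => hcB i m _ hG hMp x hx' hGK hGj l (by omega))
          (fun l hl => (hM m (l + 2) (by omega)).trans (le_abs_self _))
        have d2 : |psH S i m ((x, U t x), Ex.jet 1 (U t) x) * Ga.cj U m (n + 1 + 1) t x| ≤
            L i m * Ex.mu x * Sg := by
          rw [abs_mul]
          exact mul_le_mul (hL i m x _ _ hxK hx hp) (hsum m) (abs_nonneg _)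
            (mul_nonneg (hL0 i m) hmu)
        have d3 : 0 ≤ 2 ^ n * (cB i m * |M|) := by have := hcB0 i m; positivity
        have d4 := mul_nonneg d3 hmS
        have d5 := hL0 i m
        change |_ - psB S i m ((x, U t x), Ex.jet 1 (U t) x) * Ga.cj U m (n + 1 + 1) t x| ≤ _ at d1
        simp only [psH] at d2
        have d1' := abs_le.1 d1
        have d2' := abs_le.1 d2
        rw [pow_succ]
        exact abs_le.2 ⟨by linarith [d1'.1, d2'.1], by linarith [d1'.2, d2'.2]⟩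
      rw [psi_jet hu hm i n hx']
      have b3 : S.a (x, U t x) * S.b * Ga.cj U i (n + 1 + 1) t x = ∑ m,
          (if i = m then 1 else 0) * (S.a (x, U t x) * S.b) * Ga.cj U m (n + 1 + 1) t x := by
        simp
      rw [b3, add_assoc, ← Finset.sum_add_distrib]
      refine (abs_add_le _ _).trans ?_
      have b4 := (Finset.abs_sum_le_sum_abs _ Finset.univ).trans
        (Finset.sum_le_sum fun m _ => b2 m)
      rw [← Finset.sum_mul] at b4
      have b5 := mul_le_mul_of_nonneg_right (hAi i) (by positivity : 0 ≤ 1 + Ex.mu x * Sg)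
      have b6 := mul_nonneg (hcA0 i) hmS
      have : 0 ≤ ca * S.b * |M| := by positivity
      linarith [abs_nonneg c0]
  have e4 : |(j : ℝ) * (Ex.jet 1 (fun y => S.a (y, U t y)) x * Ex.mu x * Ga.cj U i (j + 1) t x)| ≤
      j * ca * (Ex.mu x * Sg) := by
    rw [abs_mul, abs_mul, abs_mul, abs_of_nonneg hmu, Nat.abs_cast, mul_assoc, mul_assoc]
    exact mul_le_mul_of_nonneg_left (mul_le_mul ha1 (mul_le_mul_of_nonneg_left (hsum i) hmu)
      (by positivity) hca0) (by positivity)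
  have e5 : (j : ℝ) * Ga.cj U i (j - 1 + 2) t x = j * Ga.cj U i (j + 1) t x := by
    rcases j with _ | n
    · simp
    · rfl
  have e6 : (j : ℝ) * ((Ex.jet 0 (fun y => S.a (y, U t y)) x * muS x 1 +
      Ex.jet 1 (fun y => S.a (y, U t y)) x * muS x 0) * Ga.cj U i (j - 1 + 2) t x) =
      S.a (x, U t x) * (j * (1 - 2 * x)) * Ga.cj U i (j + 1) t x +
        j * (Ex.jet 1 (fun y => S.a (y, U t y)) x * Ex.mu x * Ga.cj U i (j + 1) t x) := by
    rw [mul_left_comm, e5]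
    change (S.a (x, U t x) * (1 - 2 * x) + _ * Ex.mu x) * _ = _
    ring
  rw [e6] at e2
  change |_ - (S.a (x, U t x) * Ex.mu x * _ + _)| ≤ _ at e2
  rw [e1]
  have f2 := abs_le.1 e2
  have f3 := abs_le.1 e3
  have f4 := abs_le.1 e4
  have g1 := mul_nonneg (abs_nonneg ci) hmS
  have g2 := mul_nonneg hca0 hmS
  have g3 := mul_nonneg hR0 hmS
  exact abs_le.2 ⟨by linarith [f2.1, f3.1, f4.1, abs_nonneg ci],
    by linarith [f2.2, f3.2, f4.2, abs_nonneg ci]⟩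

end

end Crest.Agent.N207.S.Rg
end

-- ▼ part N207/S/Rg/Top
section

/-!
Row 207 (S0320): block REG + FAR.
-/

set_option autoImplicit false

namespace Crest.Agent.N207.S.Rg

/-- **Block REG + FAR.** -/
theorem regStmt : RegStmt := regStmt_of far

end Crest.Agent.N207.S.Rg
end

-- ▼ part N207/S/Out/Lan
section

/-!
Row 207 (S0320), block OUTER: mean value lemmas and the Landau interpolation inequality.
-/

set_option autoImplicit false

open Set Filter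
open scoped Topology

namespace Crest.Agent.N207.S.Out

theorem abs_sub_le_of_deriv {u u' : ℝ → ℝ} {a b B y z : ℝ}
    (hu : ∀ s ∈ Icc a b, HasDerivAt u (u' s) s) (hB : ∀ s ∈ Icc a b, |u' s| ≤ B)
    (hy : y ∈ Icc a b) (hz : z ∈ Icc a b) : |u z - u y| ≤ B * |z - y| := by
  have := (convex_Icc a b).norm_image_sub_le_of_norm_hasDerivWithin_le
    (fun s hs => (hu s hs).hasDerivWithinAt) (fun s hs => by simpa using hB s hs) hy hz
  simpa using this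

theorem landau_step {u0 u1 u2 : ℝ → ℝ} {a b δ S0 S2 y : ℝ}
    (h0 : ∀ s ∈ Icc a b, HasDerivAt u0 (u1 s) s) (h1 : ∀ s ∈ Icc a b, HasDerivAt u1 (u2 s) s)
    (b0 : ∀ s ∈ Icc a b, |u0 s| ≤ S0) (b2 : ∀ s ∈ Icc a b, |u2 s| ≤ S2) (hδ : 0 < δ)
    (hab : 2 * δ ≤ b - a) (hy : y ∈ Icc a b) : |u1 y| * δ ≤ 2 * S0 + S2 * δ ^ 2 := by
  obtain ⟨z, hz, hd⟩ : ∃ z ∈ Icc a b, |z - y| = δ := by
    rcases le_total (y + δ) b with h | h
    · exact ⟨y + δ, ⟨by linarith [hy.1], h⟩, by simp [abs_of_pos hδ]⟩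
    · exact ⟨y - δ, ⟨by linarith, by linarith [hy.2]⟩, by simp [abs_of_pos hδ]⟩
  have hsub : uIcc y z ⊆ Icc a b := uIcc_subset_Icc hy hz
  have hS2 : 0 ≤ S2 := (abs_nonneg _).trans (b2 y hy)
  have key : |(u0 z - u1 y * z) - (u0 y - u1 y * y)| ≤ S2 * δ * |z - y| := by
    refine abs_sub_le_of_deriv (u := fun s => u0 s - u1 y * s) (u' := fun s => u1 s - u1 y)
      (a := y ⊓ z) (b := y ⊔ z) (fun s hs => ?_) (fun s hs => ?_) left_mem_uIcc right_mem_uIcc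
    · exact ((h0 s (hsub hs)).sub ((hasDerivAt_id s).const_mul (u1 y))).congr_deriv (by simp)
    · refine (abs_sub_le_of_deriv h1 b2 hy (hsub hs)).trans ?_
      refine mul_le_mul_of_nonneg_left ?_ hS2
      rw [← hd]
      exact abs_sub_left_of_mem_uIcc hs
  have e : u1 y * (z - y) = (u0 z - u0 y) - ((u0 z - u1 y * z) - (u0 y - u1 y * y)) := by ring
  have t1 := abs_sub (u0 z - u0 y) ((u0 z - u1 y * z) - (u0 y - u1 y * y))
  have t2 := abs_sub (u0 z) (u0 y)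
  rw [← e, abs_mul, hd] at t1
  rw [hd] at key
  nlinarith [b0 z hz, b0 y hy]

theorem disc_max {a : ℕ → ℝ} {m : ℕ} {B : ℝ} (hB : 0 ≤ B)
    (h : ∀ i, i + 2 ≤ m → a (i + 1) ≤ a i / 4 + a (i + 2) / 2) (h0 : a 0 ≤ B) (hm : a m ≤ B) :
    ∀ j ≤ m, a j ≤ B := by
  obtain ⟨i, hi, hmax⟩ := Finset.exists_max_image (Finset.range (m + 1)) a ⟨0, by simp⟩
  have hi' : i ≤ m := Nat.lt_succ_iff.1 (Finset.mem_range.1 hi)
  have hm' : ∀ j ≤ m, a j ≤ a i := fun j hj => hmax j (Finset.mem_range.2 (Nat.lt_succ_of_le hj))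
  have : a i ≤ B := by
    rcases hi'.eq_or_lt with e | e
    · rw [e]; exact hm
    rcases i with _ | i
    · exact h0
    have := h i e
    have b1 := hm' i (by omega)
    have b2 := hm' (i + 2) e
    linarith
  exact fun j hj => (hm' j hj).trans this

/-- **Landau interpolation** on `[x/2, x]`. -/
theorem landau (m : ℕ) : ∃ L ρ0 : ℝ, 1 ≤ L ∧ 0 < ρ0 ∧ ∀ (f : ℕ → ℝ → ℝ) (x ρ B : ℝ),
    IsSeq (Icc (x / 2) x) f → 0 < x → 0 < ρ → ρ ≤ ρ0 → (∀ y ∈ Icc (x / 2) x, |f 0 y| ≤ B) →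
    (∀ y ∈ Icc (x / 2) x, |f m y| * (ρ * x) ^ m ≤ B) → ∀ j ≤ m, |f j x| * (ρ * x) ^ j ≤ L * B := by
  refine ⟨4 ^ (m ^ 2), 1 / (2 * 16 ^ m), one_le_pow₀ (by norm_num), by positivity, ?_⟩
  intro f x ρ B hf hx hρ hρ0 b0 bm
  have hxI : x ∈ Icc (x / 2) x := ⟨by linarith, le_rfl⟩
  have hB : 0 ≤ B := (abs_nonneg _).trans (b0 x hxI)
  have hmax : ∀ j, ∃ y ∈ Icc (x / 2) x, ∀ s ∈ Icc (x / 2) x, |f j s| ≤ |f j y| := fun j => by
    obtain ⟨y, hy, h⟩ := isCompact_Icc.exists_isMaxOn (f := fun s => |f j s|) ⟨x, hxI⟩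
      fun s hs => (hf j s hs).continuousAt.abs.continuousWithinAt
    exact ⟨y, hy, fun s hs => h hs⟩
  choose y hy hS using hmax
  obtain ⟨r, hr⟩ : ∃ r, r = ρ * x := ⟨_, rfl⟩
  have hr0 : 0 < r := by rw [hr]; positivity
  rw [← hr] at bm ⊢
  have hL : (1 : ℝ) ≤ 4 ^ (m ^ 2) := one_le_pow₀ (by norm_num)
  have key := disc_max (a := fun j => |f j (y j)| * r ^ j * 4 ^ (j ^ 2)) (m := m)
    (B := 4 ^ (m ^ 2) * B) (by positivity) (fun i hi => ?_) (by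
      simp only [pow_zero, mul_one, ne_eq, OfNat.ofNat_ne_zero, not_false_eq_true, zero_pow]
      nlinarith [b0 _ (hy 0)]) (by
      have := bm _ (hy m)
      nlinarith)
  · intro j hj
    refine le_trans ?_ (key j hj)
    have h1 : (1 : ℝ) ≤ 4 ^ (j ^ 2) := one_le_pow₀ (by norm_num)
    have h2 := mul_le_mul_of_nonneg_right (hS j x hxI) (pow_pos hr0 j).le
    have h3 : 0 ≤ |f j (y j)| * r ^ j := by positivity
    nlinarith
  obtain ⟨Q, hQ⟩ : ∃ Q : ℝ, Q = 4 ^ (2 * i + 1) := ⟨_, rfl⟩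
  obtain ⟨P, hP⟩ : ∃ P : ℝ, P = 4 ^ (i ^ 2) := ⟨_, rfl⟩
  have hQ0 : 0 < Q := by rw [hQ]; positivity
  have hP0 : 0 < P := by rw [hP]; positivity
  have e1 : (4 : ℝ) ^ ((i + 1) ^ 2) = P * Q := by rw [hP, hQ, ← pow_add]; congr 1; ring
  have e2 : (4 : ℝ) ^ ((i + 2) ^ 2) = P * Q * (16 * Q) := by
    rw [hP, hQ, show (16 : ℝ) = 4 ^ 2 by norm_num, ← pow_add, ← pow_add, ← pow_add]
    congr 1; ring
  have hQ1 : 64 * Q ≤ 16 ^ m := by
    rw [hQ, show (16 : ℝ) = 4 ^ 2 by norm_num, show (64 : ℝ) = 4 ^ 3 by norm_num, ← pow_add,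
      ← pow_mul]
    exact pow_le_pow_right₀ (by norm_num) (by omega)
  have hρ1 : ρ * (2 * 16 ^ m) ≤ 1 := by rwa [le_div_iff₀ (by positivity)] at hρ0
  have hδ : 2 * (8 * Q * r) ≤ x - x / 2 := by
    have : ρ * (128 * Q) ≤ 1 := by nlinarith
    rw [hr]; nlinarith
  have st := landau_step (hf i) (hf (i + 1)) (hS i) (hS (i + 2)) (δ := 8 * Q * r)
    (by positivity) hδ (hy (i + 1))
  have st2 := mul_le_mul_of_nonneg_right st (show 0 ≤ r ^ i * P / 8 by positivity)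
  rw [e1, e2, ← hP, pow_succ r (i + 1), pow_succ r i]
  nlinarith

end Crest.Agent.N207.S.Out
end

-- ▼ part N207/S/Out/Src
section

/-!
Row 207 (S0320), block OUTER: the size of the source term.
-/

set_option autoImplicit false

open Set Filter
open scoped Topology

namespace Crest.Agent.N207.S.Out

noncomputable section

variable {x e : ℝ} {w W k : ℕ → ℝ → ℝ}

theorem sz_pw4 {p : ℝ} (hp : |p| ≤ 1) (hx : 0 < x) : Sz 4 (24 * x ^ p) (pw p) x := by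
  have := sz_pw hp hx 4
  norm_num [Nat.factorial] at this
  exact this

theorem sz_ES {a b c κ : ℝ} (hx : 0 < x) (e0 : 0 < e) (e1 : e ≤ 1 / 2) (hW : Sz 6 (a * x) W x)
    (hζ : Sz 4 b (zeS e k) x) (hz : Sz 4 c (zS k) x) (hr : Sz 4 (κ / x) (rS w) x) :
    Sz 4 (16 * b * (769 * a) + 16 * (16 * c * (384 * κ)) * (16 * (385 * a) * (385 * a)))
      (ES e w W k) x := by
  have p1 := sz_pw4 (p := 1) (by simp) hx
  have pm := sz_pw4 (p := -1) (by simp) hx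
  rw [Real.rpow_one] at p1
  rw [Real.rpow_neg_one] at pm
  have h2 : Sz 4 (385 * a) (s2S W) x :=
    (((hW.sh hx).mono (m' := 4) (by norm_num) le_rfl).sub hx
      (pm.pr hx (hW.mono (by norm_num) le_rfl))).le (le_of_eq (by field_simp; norm_num))
  have h1 : Sz 4 (769 * a) (s1S W) x :=
    ((p1.pr hx ((hW.sh hx).sh hx)).sub hx h2).le (le_of_eq (by field_simp; norm_num))
  have hq : Sz 4 (384 * κ) (pr (pw 1) (rS w)) x :=
    (p1.pr hx hr).le (le_of_eq (by field_simp; ring))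
  have he : |2 * e| ≤ 1 := by rw [abs_of_pos (by linarith)]; linarith
  refine (((hζ.pr hx h1).cmul he hx).sub hx
    (((hz.pr hx hq).pr hx (h2.pr hx h2)).cmul he hx)).le (le_of_eq ?_)
  norm_num

theorem sz_z {C : ℝ} (m : ℕ) (hx : 0 < x) (hk : ∀ j ≤ m, |k j x| * x ^ (j + 1) ≤ C) :
    Sz m (m.factorial + 2 ^ m * m.factorial * C) (zS k) x := by
  have hk' : Sz m (C / x) k x := fun j hj => by
    rw [le_div_iff₀ hx, mul_assoc, ← pow_succ]; exact hk j hj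
  have p0 := sz_pw (p := 0) (by simp) hx m
  have p1 := sz_pw (p := 1) (by simp) hx m
  refine (p0.sub hx (p1.pr hx hk')).le (le_of_eq ?_)
  rw [Real.rpow_zero, Real.rpow_one]
  field_simp

theorem sz_ze {C : ℝ} (m : ℕ) (hx : 0 < x) (e0 : 0 < e)
    (hk : ∀ j ≤ m, |k j x| * x ^ (j + 1) ≤ C) :
    Sz m (2 * m.factorial + 2 ^ m * m.factorial * C) (zeS e k) x := by
  have p0 := sz_pw (p := 0) (by simp) hx m
  have he : |1 / (1 + 2 * e)| ≤ 1 := by
    rw [abs_of_pos (by positivity), div_le_one (by positivity)]; linarith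
  refine ((sz_z m hx hk).sub hx (p0.cmul he hx)).le (le_of_eq ?_)
  rw [Real.rpow_zero]; ring

theorem landau_sz (m : ℕ) : ∃ L ρ0 : ℝ, 1 ≤ L ∧ 0 < ρ0 ∧ ∀ (f : ℕ → ℝ → ℝ) (x ρ B : ℝ) (n : ℕ),
    n ≤ m → IsSeq (Icc (x / 2) x) f → 0 < x → 0 < ρ → ρ ≤ ρ0 → ρ ≤ 1 →
    (∀ y ∈ Icc (x / 2) x, |f 0 y| ≤ B) → (∀ y ∈ Icc (x / 2) x, |f m y| * (ρ * x) ^ m ≤ B) →
    Sz n (L * B / ρ ^ n) f x := by
  obtain ⟨L, ρ0, hL, h0, h⟩ := landau m
  refine ⟨L, ρ0, hL, h0, fun f x ρ B n hn hf hx hρ a b c d j hj => ?_⟩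
  have := h f x ρ B hf hx hρ a c d j (hj.trans hn)
  rw [le_div_iff₀ (by positivity)]
  refine le_trans ?_ this
  rw [mul_pow, mul_assoc, mul_comm (x ^ j)]
  exact mul_le_mul_of_nonneg_left
    (mul_le_mul_of_nonneg_right (pow_le_pow_of_le_one hρ.le b hj) (by positivity)) (abs_nonneg _)

theorem rpow_div_nat {s : ℝ} (hs : 0 < s) (p : ℝ) (n N : ℕ) (h : (N : ℝ) * p = n) :
    (s ^ N) ^ p = s ^ n := by
  rw [← Real.rpow_natCast, ← Real.rpow_mul hs.le, h, Real.rpow_natCast]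

theorem kc_nonneg {C : ℝ} (hC : 0 ≤ C) (m : ℕ) : 0 ≤ kc C m := by
  induction m with
  | zero => simp [kc]
  | succ m ih => rw [kc]; positivity

/-- the source term is `O(x^(21/10))` in the scale invariant `C⁴` norm -/
theorem src (C : ℝ) (hC : 1 ≤ C) : ∃ X1 : ℝ, 0 < X1 ∧ ∀ (e α xs x : ℝ) (w W k : ℕ → ℝ → ℝ),
    0 < e → e ≤ 1 / 2 → -1 ≤ α → α ≤ 0 → IsSeq (Ioo 0 xs) w → IsSeq (Ioo 0 xs) W →
    IsSeq (Ioo 0 xs) k → (∀ y ∈ Ioo 0 xs, 0 < w 0 y) → (∀ y, W 0 y = w 0 y - y) →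
    (∀ y, W 40 y = w 40 y) → 0 < x → x ≤ X1 → x < xs →
    (∀ y ∈ Icc (x / 2) x, (∀ j ≤ 40, |w (j + 1) y| * y ^ j ≤ C ∧ |k j y| * y ^ (j + 1) ≤ C) ∧
      |w 0 y - y| ≤ C * y ^ (11 / 4 : ℝ) ∧
      |1 - y * k 0 y - 1 / (1 + 2 * e)| ≤ C * y ^ (3 / 4 : ℝ)) →
    Sz 4 (x ^ (21 / 10 : ℝ)) (pr (pw (-α)) (ES e w W k)) x := by
  obtain ⟨L, ρ0, hL, hρ0, hlan⟩ := landau_sz 40
  obtain ⟨cz, hcz⟩ : ∃ cz : ℝ, cz = 2 * (40 : ℕ).factorial + 2 ^ 40 * (40 : ℕ).factorial * C :=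
    ⟨_, rfl⟩
  obtain ⟨f40, hf40⟩ : ∃ f : ℝ, f = (40 : ℕ).factorial := ⟨_, rfl⟩
  have hf1 : 1 ≤ f40 := by rw [hf40]; exact_mod_cast Nat.factorial_pos 40
  obtain ⟨P, hP⟩ : ∃ P : ℝ, P = 2 ^ 40 := ⟨_, rfl⟩
  have hP1 : 1 ≤ P := by rw [hP]; norm_num
  have hczC : C ≤ cz := by
    rw [hcz, ← hf40, ← hP]; nlinarith [mul_le_mul hP1 hf1 zero_le_one (by linarith)]
  have hκ := kc_nonneg (zero_le_one.trans hC) 4
  obtain ⟨κ, hκe⟩ : ∃ κ, κ = kc C 4 := ⟨_, rfl⟩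
  rw [← hκe] at hκ
  obtain ⟨K, hK⟩ : ∃ K : ℝ, K = 384 * (16 * (L * (P * cz)) * (769 * (L * (P * C))) +
    16 * (16 * cz * (384 * κ)) * (16 * (385 * (L * (P * C))) * (385 * (L * (P * C))))) := ⟨_, rfl⟩
  have hC0 : 0 < C := by linarith
  have hcz0 : 0 < cz := by linarith
  have hK0 : 0 ≤ K := by rw [hK]; positivity
  obtain ⟨s0, hs0, a1, a2, a3, a4⟩ : ∃ s0 : ℝ, 0 < s0 ∧ s0 ≤ 1 ∧ s0 ≤ ρ0 ∧ s0 * (2 * C) ≤ 1 ∧
      s0 * K ≤ 1 := by
    refine ⟨min (min 1 ρ0) (1 / (2 * C + K)), by positivity,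
      (min_le_left _ _).trans (min_le_left _ _), (min_le_left _ _).trans (min_le_right _ _),
      ?_, ?_⟩
    · refine (mul_le_mul_of_nonneg_right (min_le_right _ _) (by positivity)).trans ?_
      rw [div_mul_eq_mul_div, div_le_one (by positivity)]; linarith
    · refine (mul_le_mul_of_nonneg_right (min_le_right _ _) hK0).trans ?_
      rw [div_mul_eq_mul_div, div_le_one (by positivity)]; linarith
  refine ⟨s0 ^ 160, by positivity, ?_⟩
  intro e α xs x w W k e0 e1 α0 α1 hw hW hk hpos W0 W40 hx hx1 hxs hI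
  obtain ⟨s, hs, hsx⟩ : ∃ s : ℝ, 0 < s ∧ x = s ^ 160 :=
    ⟨x ^ ((160 : ℕ)⁻¹ : ℝ), by positivity, (Real.rpow_inv_natCast_pow hx.le (by norm_num)).symm⟩
  have hss : s ≤ s0 := by
    rw [hsx] at hx1
    exact le_of_pow_le_pow_left₀ (by norm_num) hs0.le hx1
  have s1 : s ≤ 1 := hss.trans a1
  have spow : ∀ n : ℕ, s ^ (n + 1) ≤ s := fun n => by
    rw [pow_succ]; exact mul_le_of_le_one_left hs.le (pow_le_one₀ hs.le s1)
  have hsub : Icc (x / 2) x ⊆ Ioo 0 xs := fun y hy => ⟨by linarith [hy.1], hy.2.trans_lt hxs⟩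
  have hxI : x ∈ Icc (x / 2) x := ⟨by linarith, le_rfl⟩
  have r1 : x ^ (11 / 4 : ℝ) = s ^ 440 := by rw [hsx]; exact rpow_div_nat hs _ _ _ (by norm_num)
  have r2 : x ^ (3 / 4 : ℝ) = s ^ 120 := by rw [hsx]; exact rpow_div_nat hs _ _ _ (by norm_num)
  have r3 : x ^ (21 / 10 : ℝ) = s ^ 336 := by rw [hsx]; exact rpow_div_nat hs _ _ _ (by norm_num)
  have hyx : ∀ y ∈ Icc (x / 2) x, ∀ n : ℕ, x ^ n ≤ 2 ^ n * y ^ n := fun y hy n => by
    rw [← mul_pow]; exact pow_le_pow_left₀ hx.le (by linarith [hy.1]) n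
  have hWs : Sz 6 (L * (P * C) * s ^ 238 * x) W x := by
    refine (hlan W x (s ^ 7) (P * C * s ^ 440) 6 (by norm_num) (hW.mono hsub) hx (by positivity)
      ((spow 6).trans (hss.trans a2)) ((spow 6).trans s1) (fun y hy => ?_)
      fun y hy => ?_).le (le_of_eq ?_)
    · rw [W0]
      refine (hI y hy).2.1.trans ?_
      have : y ^ (11 / 4 : ℝ) ≤ s ^ 440 := by
        rw [← r1]; exact Real.rpow_le_rpow (hsub hy).1.le hy.2 (by norm_num)
      have h2 : 0 ≤ C * s ^ 440 := by positivity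
      nlinarith
    · rw [W40]
      have b1 := ((hI y hy).1 39 (by norm_num)).1
      have b2 := mul_le_mul_of_nonneg_left (hyx y hy 39) (abs_nonneg (w 40 y))
      have b3 : |w 40 y| * x ^ 39 ≤ P * C := by
        have : (2 : ℝ) ^ 39 ≤ P := by rw [hP]; norm_num
        nlinarith
      have e : |w 40 y| * (s ^ 7 * x) ^ 40 = |w 40 y| * x ^ 39 * s ^ 440 := by
        rw [mul_pow, pow_succ x 39]; nth_rewrite 2 [hsx]; ring
      rw [e]
      exact mul_le_mul_of_nonneg_right b3 (by positivity)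
    · rw [hsx]; field_simp
  have hζ : Sz 4 (L * (P * cz) * s ^ 108) (zeS e k) x := by
    refine (hlan (zeS e k) x (s ^ 3) (P * cz * s ^ 120) 4 (by norm_num)
      ((isSeq_ze sub0 hk).mono hsub) hx (by positivity)
      ((spow 2).trans (hss.trans a2)) ((spow 2).trans s1) (fun y hy => ?_)
      fun y hy => ?_).le (le_of_eq ?_)
    · rw [zeS_zero]
      refine (hI y hy).2.2.trans ?_
      have : y ^ (3 / 4 : ℝ) ≤ s ^ 120 := by
        rw [← r2]; exact Real.rpow_le_rpow (hsub hy).1.le hy.2 (by norm_num)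
      have h2 : C ≤ P * cz := by nlinarith
      exact mul_le_mul h2 this (Real.rpow_nonneg (hsub hy).1.le _) (by positivity)
    · have b1 := sz_ze 40 (hsub hy).1 e0 (fun j hj => ((hI y hy).1 j hj).2) 40 le_rfl
      rw [← hcz] at b1
      have b2 := mul_le_mul_of_nonneg_left (hyx y hy 40) (abs_nonneg (zeS e k 40 y))
      rw [← hP] at b2
      have b3 : |zeS e k 40 y| * x ^ 40 ≤ P * cz := by nlinarith
      have e : |zeS e k 40 y| * (s ^ 3 * x) ^ 40 = |zeS e k 40 y| * x ^ 40 * s ^ 120 := by ring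
      rw [e]
      exact mul_le_mul_of_nonneg_right b3 (by positivity)
    · field_simp
  have hz : Sz 4 cz (zS k) x :=
    (sz_z 40 hx fun j hj => ((hI x hxI).1 j hj).2).mono (by norm_num)
      (by rw [hcz, ← hf40]; linarith)
  have hl : x ≤ 2 * w 0 x := by
    have b1 := (abs_le.1 (hI x hxI).2.1).1
    rw [r1] at b1
    have b2 : s ^ 440 = s ^ 280 * x := by rw [hsx]; ring
    have b3 : s ^ 280 * (2 * C) ≤ 1 :=
      (mul_le_mul_of_nonneg_right ((spow 279).trans hss) (by positivity)).trans a3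
    nlinarith
  have hr : Sz 4 (κ / x) (rS w) x := by
    rw [hκe]
    exact sz_rS isOpen_Ioo hw (fun y hy => (hpos y hy).ne') (hsub hxI) hx hl 4
      fun j hj => ((hI x hxI).1 j (hj.trans (by norm_num))).1
  have hE := sz_ES hx e0 e1 hWs hζ hz hr
  have pa := sz_pw4 (p := -α) (by rw [abs_le]; constructor <;> linarith) hx
  have pa1 : x ^ (-α) ≤ 1 :=
    Real.rpow_le_one hx.le (by rw [hsx]; exact pow_le_one₀ hs.le s1) (by linarith)
  refine ((pa.le (show _ ≤ 24 by linarith)).pr hx hE).le ?_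
  rw [r3]
  obtain ⟨A, hA⟩ : ∃ A, A = 16 * (L * (P * cz)) * (769 * (L * (P * C))) := ⟨_, rfl⟩
  obtain ⟨B, hB⟩ : ∃ B, B = 16 * (16 * cz * (384 * κ)) *
    (16 * (385 * (L * (P * C))) * (385 * (L * (P * C)))) := ⟨_, rfl⟩
  have hB0 : 0 ≤ B := by rw [hB]; positivity
  have e : 2 ^ 4 * 24 * (16 * (L * (P * cz) * s ^ 108) * (769 * (L * (P * C) * s ^ 238)) +
      16 * (16 * cz * (384 * κ)) * (16 * (385 * (L * (P * C) * s ^ 238)) *
        (385 * (L * (P * C) * s ^ 238)))) = 384 * (A + B * s ^ 130) * s ^ 10 * s ^ 336 := by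
    rw [hA, hB]; ring
  rw [e]
  refine mul_le_of_le_one_left (by positivity) ?_
  rw [← hA, ← hB] at hK
  have b1 : 384 * (A + B * s ^ 130) ≤ K := by
    have : B * s ^ 130 ≤ B := mul_le_of_le_one_right hB0 ((spow 129).trans s1)
    rw [hK]; linarith
  have b2 : 384 * (A + B * s ^ 130) * s ^ 10 ≤ K * s0 :=
    mul_le_mul b1 ((spow 9).trans hss) (by positivity) hK0
  exact b2.trans (by rw [mul_comm]; exact a4)

end

end Crest.Agent.N207.S.Out
end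

-- ▼ part N207/S/Out/Ob
section

/-!
Row 207 (S0320), block OUTER: from the bound on `V''''` and the cube to the outer estimates.
-/

set_option autoImplicit false

open Set Filter
open scoped Topology

namespace Crest.Agent.N207.S.Out

noncomputable section

theorem abs_sub_le_of_deriv_le {f f' g g' : ℝ → ℝ} {a b : ℝ} (hab : a ≤ b)
    (hf : ∀ s ∈ Icc a b, HasDerivAt f (f' s) s) (hg : ∀ s ∈ Icc a b, HasDerivAt g (g' s) s)
    (h : ∀ s ∈ Icc a b, |f' s| ≤ g' s) : |f b - f a| ≤ g b - g a := by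
  have key : ∀ σ : ℝ, |σ| ≤ 1 → g a - σ * f a ≤ g b - σ * f b := fun σ hσ => by
    have hd : ∀ s ∈ Icc a b, HasDerivAt (fun s => g s - σ * f s) (g' s - σ * f' s) s :=
      fun s hs => (hg s hs).sub ((hf s hs).const_mul σ)
    refine monotoneOn_of_deriv_nonneg (convex_Icc a b)
      (fun s hs => (hd s hs).continuousAt.continuousWithinAt)
      (fun s hs => (hd s (interior_subset hs)).differentiableAt.differentiableWithinAt)
      (fun s hs => ?_) (left_mem_Icc.2 hab) (right_mem_Icc.2 hab) hab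
    rw [(hd s (interior_subset hs)).deriv]
    have b1 := h s (interior_subset hs)
    have b2 : σ * f' s ≤ |f' s| := by
      refine (le_abs_self _).trans ?_
      rw [abs_mul]; exact mul_le_of_le_one_left (abs_nonneg _) hσ
    linarith
  have a1 := key 1 (by simp)
  have a2 := key (-1) (by simp)
  rw [abs_le]; constructor <;> linarith

theorem root20 {x : ℝ} (hx : 0 < x) (h1 : x ≤ (1 / 10 ^ 4) ^ 20) :
    ∃ s : ℝ, 0 < s ∧ s ≤ 1 / 10 ^ 4 ∧ x = s ^ 20 ∧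
      ∀ (p : ℝ) (n : ℕ), 20 * p = n → x ^ p = s ^ n ∧ x ^ (-p) = (s ^ n)⁻¹ := by
  obtain ⟨s, hs, hsx⟩ : ∃ s : ℝ, 0 < s ∧ x = s ^ 20 :=
    ⟨x ^ ((20 : ℕ)⁻¹ : ℝ), by positivity, (Real.rpow_inv_natCast_pow hx.le (by norm_num)).symm⟩
  refine ⟨s, hs, ?_, hsx, fun p n h => ?_⟩
  · rw [hsx] at h1
    exact le_of_pow_le_pow_left₀ (by norm_num) (by positivity) h1
  · have : x ^ p = s ^ n := by
      rw [hsx, ← Real.rpow_natCast, ← Real.rpow_mul hs.le, ← Real.rpow_natCast, ← h]; norm_num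
    exact ⟨this, by rw [Real.rpow_neg hx.le, this]⟩

theorem V3_bound {V : ℕ → ℝ → ℝ} {a X x : ℝ} (ha : 0 < a) (hX : X ≤ (1 / 10 ^ 4) ^ 20)
    (hV : IsSeq (Icc a X) V) (h4 : ∀ y ∈ Icc a X, |V 4 y| ≤ 2 * y ^ (-(19 / 20) : ℝ))
    (h3 : |V 3 X + 3| ≤ 1 / 200) (hx : x ∈ Icc a X) : |V 3 x + 3| ≤ 1 / 100 := by
  have hsub : Icc x X ⊆ Icc a X := Icc_subset_Icc hx.1 le_rfl
  have hx0 : 0 < x := ha.trans_le hx.1
  have key := abs_sub_le_of_deriv_le (f := V 3) (f' := V 4) (g := fun y => 40 * y ^ (1 / 20 : ℝ))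
    (g' := fun y => 2 * y ^ (-(19 / 20) : ℝ)) hx.2 (fun s hs => hV 3 s (hsub hs))
    (fun s hs => by
      refine ((Real.hasDerivAt_rpow_const (x := s) (p := 1 / 20)
        (Or.inl (hx0.trans_le hs.1).ne')).const_mul 40).congr_deriv ?_
      rw [show (1 / 20 - 1 : ℝ) = -(19 / 20) by norm_num]; ring)
    fun s hs => h4 s (hsub hs)
  obtain ⟨s, -, s1, -, hp⟩ := root20 (hx0.trans_le hx.2) hX
  have e := (hp (1 / 20) 1 (by norm_num)).1
  have : 0 ≤ x ^ (1 / 20 : ℝ) := Real.rpow_nonneg hx0.le _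
  simp only [e, pow_one] at key
  rw [abs_le] at key h3 ⊢
  constructor <;> linarith [key.1, key.2, h3.1, h3.2]

theorem taylor3 {V : ℕ → ℝ → ℝ} {a m τ : ℝ} (ha : 0 ≤ a) (hτ : τ ∈ Icc a m)
    (hV : IsSeq (Icc a m) V) (h3 : ∀ y ∈ Icc a m, |V 3 y + 3| ≤ 1 / 100)
    (c0 : |V 0 τ| ≤ τ ^ 3 / 100) (c1 : |V 1 τ| ≤ τ ^ 2 / 100) (c2 : |V 2 τ| ≤ τ / 100) :
    ∀ y ∈ Icc a m, |V 0 y - (τ - y) ^ 3 / 2| ≤ 4 * m ^ 3 / 100 ∧
      |V 1 y + 3 * (τ - y) ^ 2 / 2| ≤ 3 * m ^ 2 / 100 ∧ |V 2 y - 3 * (τ - y)| ≤ 2 * m / 100 := by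
  have hτ0 : 0 ≤ τ := ha.trans hτ.1
  have hm : 0 ≤ m := hτ0.trans hτ.2
  have hd : ∀ y ∈ Icc a m, |y - τ| ≤ m := fun y hy => by
    rw [abs_le]; constructor <;> linarith [hy.1, hy.2, hτ.1, hτ.2]
  have hl : ∀ y : ℝ, HasDerivAt (fun y => τ - y) (-1) y := fun y => (hasDerivAt_id y).const_sub τ
  have b2 : ∀ y ∈ Icc a m, |V 2 y - 3 * (τ - y)| ≤ 2 * m / 100 := fun y hy => by
    have := abs_sub_le_of_deriv (u := fun y => V 2 y - 3 * (τ - y)) (u' := fun y => V 3 y + 3)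
      (fun s hs => ((hV 2 s hs).sub ((hl s).const_mul 3)).congr_deriv (by ring)) h3 hτ hy
    have t := abs_add_le (V 2 y - 3 * (τ - y) - (V 2 τ - 3 * (τ - τ))) (V 2 τ)
    rw [show V 2 y - 3 * (τ - y) - (V 2 τ - 3 * (τ - τ)) + V 2 τ = V 2 y - 3 * (τ - y) by ring] at t
    linarith [hd y hy, hτ.2]
  have b1 : ∀ y ∈ Icc a m, |V 1 y + 3 * (τ - y) ^ 2 / 2| ≤ 3 * m ^ 2 / 100 := fun y hy => by
    have := abs_sub_le_of_deriv (u := fun y => V 1 y + 3 * (τ - y) ^ 2 / 2)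
      (u' := fun y => V 2 y - 3 * (τ - y))
      (fun s hs => ((hV 1 s hs).add ((((hl s).pow 2).const_mul 3).div_const 2)).congr_deriv
        (by simp; ring)) b2 hτ hy
    have t := abs_add_le (V 1 y + 3 * (τ - y) ^ 2 / 2 - (V 1 τ + 3 * (τ - τ) ^ 2 / 2)) (V 1 τ)
    rw [show V 1 y + 3 * (τ - y) ^ 2 / 2 - (V 1 τ + 3 * (τ - τ) ^ 2 / 2) + V 1 τ =
      V 1 y + 3 * (τ - y) ^ 2 / 2 by ring] at t
    have h1 := mul_le_mul_of_nonneg_left (hd y hy) (show 0 ≤ 2 * m / 100 by positivity)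
    have h2 := pow_le_pow_left₀ hτ0 hτ.2 2
    nlinarith
  refine fun y hy => ⟨?_, b1 y hy, b2 y hy⟩
  have := abs_sub_le_of_deriv (u := fun y => V 0 y - (τ - y) ^ 3 / 2)
    (u' := fun y => V 1 y + 3 * (τ - y) ^ 2 / 2)
    (fun s hs => ((hV 0 s hs).sub (((hl s).pow 3).div_const 2)).congr_deriv
      (by simp; ring)) b1 hτ hy
  have t := abs_add_le (V 0 y - (τ - y) ^ 3 / 2 - (V 0 τ - (τ - τ) ^ 3 / 2)) (V 0 τ)
  rw [show V 0 y - (τ - y) ^ 3 / 2 - (V 0 τ - (τ - τ) ^ 3 / 2) + V 0 τ =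
    V 0 y - (τ - y) ^ 3 / 2 by ring] at t
  have h1 := mul_le_mul_of_nonneg_left (hd y hy) (show 0 ≤ 3 * m ^ 2 / 100 by positivity)
  have h2 := pow_le_pow_left₀ hτ0 hτ.2 3
  nlinarith

variable {e d α t0 t1 xs t T X : ℝ} {w wt : ℕ → ℝ → ℝ → ℝ}

theorem Cube.abs (h : Cube α T w t) (hτ : 0 < T - t) :
    |VV α w 0 t (T - t)| ≤ (T - t) ^ 3 / 100 ∧ |VV α w 1 t (T - t)| ≤ (T - t) ^ 2 / 100 ∧
      |VV α w 2 t (T - t)| ≤ (T - t) / 100 := by
  have a0 := h 0 (by norm_num)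
  have a1 := h 1 (by norm_num)
  have a2 := h 2 (by norm_num)
  simp only [nn, abs_div, abs_pow, abs_of_pos hτ] at a0 a1 a2
  rw [div_le_iff₀ (by positivity)] at a0 a1 a2
  norm_num at a0 a1 a2
  exact ⟨by linarith, by linarith, by linarith⟩

theorem out_of_bounds (hp : Par e d α) (h : Jet t0 t1 xs w wt) (ht : t ∈ Icc t0 t1)
    (hτ : 0 < T - t) (hτX : T - t ≤ X) (hX : X ≤ (1 / 10 ^ 4) ^ 20) (hXs : X < xs)
    (h3 : ∀ y ∈ Icc ((T - t) / 200) X, |VV α w 3 t y + 3| ≤ 1 / 100) (hc : Cube α T w t) :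
    Out T X w t := by
  obtain ⟨c0, c1, c2⟩ := hc.abs hτ
  unfold Out
  generalize T - t = τ at *
  have hV := isSeq_V (α := α) h ht
  have hα : |α| ≤ 1 := by rw [abs_le]; constructor <;> linarith [hp.α0, hp.α1, hp.d1]
  have key : ∀ m, τ ≤ m → m ≤ X → ∀ y ∈ Icc (τ / 200) m, _ := fun m a b =>
    taylor3 (V := fun j => VV α w j t) (a := τ / 200) (m := m) (by positivity) ⟨by linarith, a⟩
      (hV.mono fun y hy => ⟨by linarith [hy.1], by linarith [hy.2]⟩)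
      (fun y hy => h3 y ⟨hy.1, hy.2.trans b⟩) c0 c1 c2
  have pa : ∀ x, 0 < x → x ≤ X → 1 ≤ x ^ α ∧ x ^ α ≤ x ^ (-(1 / 10) : ℝ) := fun x a b => by
    have x1 : x ≤ 1 := b.trans (hX.trans (by norm_num))
    exact ⟨Real.one_le_rpow_of_pos_of_le_one_of_nonpos a x1 hp.α1,
      Real.rpow_le_rpow_of_exponent_ge a x1 (by linarith [hp.α0, hp.d1])⟩
  refine ⟨fun x hx => ?_, ?_⟩
  · have hx0 : 0 < x := lt_of_lt_of_le (by positivity) hx.1
    obtain ⟨m, m1, m2, m3, m4⟩ : ∃ m, τ ≤ m ∧ m ≤ X ∧ x ≤ m ∧ m ≤ 200 * x :=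
      ⟨max x τ, le_max_right _ _, max_le hx.2 hτX, le_max_left _ _,
        max_le (by linarith) (by linarith [hx.1])⟩
    obtain ⟨b0, b1, b2⟩ := key m m1 m2 x ⟨hx.1, m3⟩
    have hd : |τ - x| ≤ m := by rw [abs_le]; constructor <;> linarith
    have hm0 : 0 ≤ m := by linarith
    have q2 := pow_le_pow_left₀ hm0 m4 2
    have q3 := pow_le_pow_left₀ hm0 m4 3
    have hVs : Sz 2 (10 ^ 7 * x ^ 3) (fun j => VV α w j t) x := by
      intro j hj
      have x2 : 0 < x ^ 2 := by positivity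
      have x3 : 0 < x ^ 3 := by positivity
      interval_cases j
      · have := pow_le_pow_left₀ (abs_nonneg _) hd 3
        rw [← abs_pow, abs_le] at this
        simp only [pow_zero, mul_one]
        rw [abs_le] at b0 ⊢
        constructor <;> nlinarith
      · have := pow_le_pow_left₀ (abs_nonneg _) hd 2
        rw [← abs_pow, abs_le] at this
        have b : |VV α w 1 t x| ≤ 10 ^ 7 * x ^ 2 := by
          rw [abs_le] at b1 ⊢
          constructor <;> nlinarith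
        nlinarith
      · have b : |VV α w 2 t x| ≤ 10 ^ 7 * x := by
          rw [abs_le] at b2 hd ⊢
          constructor <;> nlinarith
        nlinarith
    have hWs := ((sz_pw hα hx0 2).pr hx0 hVs).congr
      (W_eq (α := α) h ht ⟨hx0, hx.2.trans_lt hXs⟩)
    obtain ⟨s, s0, s1, hs, hp⟩ := root20 hx0 (hx.2.trans hX)
    have p2 := (pa x hx0 hx.2).2
    rw [(hp (1 / 10) 2 (by norm_num)).2] at p2
    have hW : Sz 2 (s ^ 55) (fun j => WS w j t) x := hWs.le (by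
      have e1 : (s ^ 2)⁻¹ * x ^ 3 = s ^ 3 * s ^ 55 := by rw [hs]; field_simp
      have e2 := mul_le_mul_of_nonneg_right p2 (show 0 ≤ x ^ 3 by positivity)
      have e3 : s ^ 3 ≤ (1 / 10 ^ 4) ^ 3 := pow_le_pow_left₀ s0.le s1 3
      have e4 := mul_le_mul_of_nonneg_right e3 (show 0 ≤ s ^ 55 by positivity)
      have e5 : 0 < s ^ 55 := by positivity
      norm_num [Nat.factorial] at e4 ⊢
      nlinarith)
    have w0 := hW 0 (by norm_num)
    have w1 := hW 1 (by norm_num)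
    have w2 := hW 2 (by norm_num)
    simp only [WS_zero, WS_one, WS_high w 0, pow_zero, mul_one, pow_one] at w0 w1 w2
    rw [(hp (11 / 4) 55 (by norm_num)).1, (hp (7 / 4) 35 (by norm_num)).1,
      (hp (3 / 4) 15 (by norm_num)).1]
    refine ⟨w0, le_of_mul_le_mul_right (w1.trans (le_of_eq ?_)) hx0,
      le_of_mul_le_mul_right (w2.trans (le_of_eq ?_)) (pow_pos hx0 2)⟩
    · rw [hs]; ring
    · rw [hs]; ring
  · have hx0 : 0 < τ / 200 := by positivity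
    have hxX : τ / 200 ≤ X := by linarith
    obtain ⟨b0, -, -⟩ := key τ le_rfl hτX (τ / 200) ⟨le_rfl, by linarith⟩
    have e := W_eq (α := α) h ht ⟨hx0, hxX.trans_lt hXs⟩ 0
    rw [pr_zero, pw_zero, WS_zero] at e
    rw [e]
    obtain ⟨p1, p2⟩ := pa _ hx0 hxX
    have t3 : 0 < τ ^ 3 := by positivity
    rw [show (τ - τ / 200) ^ 3 = (199 / 200) ^ 3 * τ ^ 3 by ring, abs_le] at b0
    have v1 : τ ^ 3 / 4 ≤ VV α w 0 t (τ / 200) := by linarith [b0.1]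
    have v2 : VV α w 0 t (τ / 200) ≤ 3 / 4 * τ ^ 3 := by linarith [b0.2]
    constructor
    · nlinarith
    · rw [mul_comm]
      exact mul_le_mul v2 p2 (by linarith) (by positivity)

end

end Crest.Agent.N207.S.Out
end

-- ▼ part N207/S/Out/Bar
section

/-!
Row 207 (S0320), block OUTER: smallness conditions, sizes, the barrier.
-/

set_option autoImplicit false

open Set Filter
open scoped Topology

namespace Crest.Agent.N207.S.Out

noncomputable section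

/-- smallness of `X` and `τ₁` -/
structure Sm (C K X τ1 : ℝ) : Prop where
  hC : 1 ≤ C
  hK : K = 46080 * (C + 1)
  X0 : 0 < X
  X1 : X ≤ (1 / 10 ^ 4) ^ 20
  X2 : X ≤ (1 / (K * 200 ^ 63)) ^ 20
  src : ∀ (e α xs x : ℝ) (w W k : ℕ → ℝ → ℝ),
    0 < e → e ≤ 1 / 2 → -1 ≤ α → α ≤ 0 → IsSeq (Ioo 0 xs) w → IsSeq (Ioo 0 xs) W →
    IsSeq (Ioo 0 xs) k → (∀ y ∈ Ioo 0 xs, 0 < w 0 y) → (∀ y, W 0 y = w 0 y - y) →
    (∀ y, W 40 y = w 40 y) → 0 < x → x ≤ X → x < xs →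
    (∀ y ∈ Icc (x / 2) x, (∀ j ≤ 40, |w (j + 1) y| * y ^ j ≤ C ∧ |k j y| * y ^ (j + 1) ≤ C) ∧
      |w 0 y - y| ≤ C * y ^ (11 / 4 : ℝ) ∧
      |1 - y * k 0 y - 1 / (1 + 2 * e)| ≤ C * y ^ (3 / 4 : ℝ)) →
    Sz 4 (x ^ (21 / 10 : ℝ)) (pr (pw (-α)) (ES e w W k)) x
  τ0 : 0 < τ1
  τa : τ1 ≤ X
  τb : τ1 * (1000 * (1 + 3 * K)) ≤ X ^ 4

theorem exists_sm (C : ℝ) (hC : 1 ≤ C) : ∃ K X0 : ℝ, 0 < X0 ∧ ∀ X : ℝ, 0 < X → X ≤ X0 →
    ∃ τ1, Sm C K X τ1 := by
  obtain ⟨X1, h1, h⟩ := src C hC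
  obtain ⟨K, hK⟩ : ∃ K : ℝ, K = 46080 * (C + 1) := ⟨_, rfl⟩
  have hK0 : 0 < K := by rw [hK]; positivity
  refine ⟨K, min X1 (min ((1 / 10 ^ 4) ^ 20) ((1 / (K * 200 ^ 63)) ^ 20)), by positivity,
    fun X a b => ⟨min X (X ^ 4 / (1000 * (1 + 3 * K))), hC, hK, a,
      b.trans ((min_le_right _ _).trans (min_le_left _ _)),
      b.trans ((min_le_right _ _).trans (min_le_right _ _)), ?_, by positivity, min_le_left _ _,
      ?_⟩⟩
  · intro e α xs x w W k a1 a2 a3 a4 a5 a6 a7 a8 a9 a10 a11 a12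
    exact h e α xs x w W k a1 a2 a3 a4 a5 a6 a7 a8 a9 a10 a11
      (a12.trans (b.trans (min_le_left _ _)))
  · rw [← le_div_iff₀ (by positivity)]; exact min_le_right _ _

theorem lfacts {τ : ℝ} (h0 : 0 < τ) (h1 : τ ≤ (1 / 10 ^ 4) ^ 20) :
    0 < τ ^ (21 / 20 : ℝ) ∧ τ ^ (21 / 20 : ℝ) ≤ τ / 200 ∧ (τ ^ (21 / 20 : ℝ)) ^ 60 = τ ^ 63 := by
  obtain ⟨s, s0, s1, hs, hp⟩ := root20 h0 h1
  rw [(hp (21 / 20) 21 (by norm_num)).1, hs]
  refine ⟨by positivity, ?_, by ring⟩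
  have : 0 < s ^ 20 := by positivity
  rw [pow_succ]; nlinarith

variable {C K X τ1 e d α t0 t1 xs t T x : ℝ} {w wt k kt : ℕ → ℝ → ℝ → ℝ}

theorem Sm.K1 (h : Sm C K X τ1) : 1 ≤ K := by rw [h.hK]; linarith [h.hC]

theorem Sm.le1 (h : Sm C K X τ1) : X ≤ 1 := h.X1.trans (by norm_num)

theorem Sm.szV (h : Sm C K X τ1) (hp : Par e d α) (hI : In C e T X w k t)
    (hτ : 0 < T - t) (hx : x ∈ Icc ((T - t) ^ (21 / 20 : ℝ)) X) :
    Sz 6 (K * x) (fun j => VV α w j t) x := by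
  have hl : 0 < (T - t) ^ (21 / 20 : ℝ) := by positivity
  have hx0 : 0 < x := hl.trans_le hx.1
  have x1 : x ≤ 1 := hx.2.trans h.le1
  have hC := h.hC
  obtain ⟨a, b, -⟩ := hI x ⟨by linarith [hx.1], hx.2⟩
  have hW : Sz 6 ((C + 1) * x) (fun j => WS w j t) x := by
    intro j hj
    rcases j with _ | _ | j
    · have : x ^ (11 / 4 : ℝ) ≤ x ^ (1 : ℝ) := Real.rpow_le_rpow_of_exponent_ge hx0 x1 (by norm_num)
      rw [Real.rpow_one] at this
      simp only [WS_zero, pow_zero, mul_one]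
      nlinarith
    · have := (a 0 (by norm_num)).1
      have t := abs_sub (w 1 t x) 1
      simp only [zero_add, WS_one, pow_zero, mul_one, pow_one, abs_one] at this t ⊢
      nlinarith
    · have := (a (j + 1) (by omega)).1
      simp only [WS_high, show j + 1 + 1 = j + 2 from rfl] at this ⊢
      rw [pow_succ, ← mul_assoc]
      nlinarith
  have pa := sz_pw (p := -α) (by rw [abs_le]; constructor <;> linarith [hp.α0, hp.α1, hp.d1]) hx0 6
  have pa1 : x ^ (-α) ≤ 1 := Real.rpow_le_one hx0.le x1 (by linarith [hp.α1])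
  norm_num [Nat.factorial] at pa
  refine ((pa.le (show _ ≤ 720 by linarith)).pr hx0 hW).le (le_of_eq ?_)
  rw [h.hK]; ring

theorem Sm.szF (h : Sm C K X τ1) (hp : Par e d α) (hs : XSol e t0 t1 xs w wt k kt) (hX : X < xs)
    (ht : t ∈ Icc t0 t1) (hI : In C e T X w k t) (hτ : 0 < T - t)
    (hx : x ∈ Icc ((T - t) ^ (21 / 20 : ℝ)) X) :
    Sz 4 (x ^ (21 / 10 : ℝ)) (fun j => FF d α w wt j t) x := by
  have hl : 0 < (T - t) ^ (21 / 20 : ℝ) := by positivity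
  have hx0 : 0 < x := hl.trans_le hx.1
  refine (h.src e α xs x (fun i => w i t) (fun i => WS w i t) (fun i => k i t) hp.e0
    (hp.e1.trans (by norm_num)) (by linarith [hp.α0, hp.d1]) hp.α1 (isSeq_u hs.jw ht)
    (isSeq_W hs.jw ht) (isSeq_u hs.jk ht) (fun y hy => hs.pos t y ht (Ioo_subset_Icc_self hy))
    (WS_zero w t) (WS_high w 38 t) hx0 hx.2 (hx.2.trans_lt hX) fun y hy =>
      hI y ⟨by linarith [hx.1, hy.1], hy.2.trans hx.2⟩).congr
    (F_eq hp hs ht ⟨hx0, hx.2.trans_lt hX⟩)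

theorem Par.bb (hp : Par e d α) {j : ℕ} (hj : j ≤ 4) :
    |1 - d + 2 * d * α + j * d - 1| ≤ 1 / 10 ^ 5 := by
  have : (j : ℝ) ≤ 4 := by exact_mod_cast hj
  have h0 : (0 : ℝ) ≤ j := Nat.cast_nonneg j
  have := hp.d0
  have := hp.d1
  have := hp.α0
  have := hp.α1
  rw [abs_le]; constructor <;> nlinarith

theorem Sm.timeX (h : Sm C K X τ1) (hp : Par e d α) (hs : XSol e t0 t1 xs w wt k kt)
    (hX : X < xs) (ht : t ∈ Icc t0 t1) (hT : t < T) (hτ : T - t0 ≤ τ1)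
    (hI : ∀ s ∈ Icc t0 t, In C e T X w k s) {j : ℕ} (hj : j ≤ 4) :
    |VV α w j t X - VV α w j t0 X| ≤ 1 / 1000 := by
  have hX0 := h.X0
  have K1 := h.K1
  have hsub : Icc t0 t ⊆ Icc t0 t1 := Icc_subset_Icc le_rfl ht.2
  have key := (convex_Icc t0 t).norm_image_sub_le_of_norm_hasDerivWithin_le
    (f := fun s => VV α w j s X) (f' := fun s => VT α wt j s X) (C := (1 + 3 * K) / X ^ 4)
    (fun s hs' => (dt_V hs.jw (hsub hs') ⟨hX0, hX⟩ j).mono hsub) (fun s hs' => by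
      have a : 0 < T - s := by linarith [hs'.2]
      have a' : T - s ≤ X := by linarith [hs'.1, h.τa]
      have b : X ∈ Icc ((T - s) ^ (21 / 20 : ℝ)) X :=
        ⟨(lfacts a (a'.trans h.X1)).2.1.trans (by linarith), le_rfl⟩
      have f1 := h.szF hp hs hX (hsub hs') (hI s hs') a b j hj
      have f1' : X ^ (21 / 10 : ℝ) ≤ 1 := Real.rpow_le_one hX0.le h.le1 (by norm_num)
      have v1 := h.szV hp (hI s hs') a b (j + 1) (by omega)
      have v2 := h.szV hp (hI s hs') a b (j + 2) (by omega)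
      have pj := pow_pos hX0 j
      have v1' : |VV α w (j + 1) s X| * X ^ j ≤ K := by
        rw [pow_succ, ← mul_assoc] at v1; exact le_of_mul_le_mul_right v1 hX0
      have v2' : X * |VV α w (j + 2) s X| * X ^ j ≤ K := by
        refine le_of_mul_le_mul_right (le_of_eq_of_le ?_ v2) hX0
        ring
      obtain ⟨β, hβ⟩ : ∃ β, β = 1 - d + 2 * d * α + j * d := ⟨_, rfl⟩
      have hb := hp.bb hj
      have e : VT α wt j s X = FF d α w wt j s X +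
          (d * X * VV α w (j + 2) s X + β * VV α w (j + 1) s X) := by rw [FF, hβ]; ring
      rw [← hβ] at hb
      have hβ2 : |β| ≤ 2 := by rw [abs_le] at hb ⊢; constructor <;> linarith [hb.1, hb.2]
      have t1 := abs_add_le (FF d α w wt j s X)
        (d * X * VV α w (j + 2) s X + β * VV α w (j + 1) s X)
      have t2 := abs_add_le (d * X * VV α w (j + 2) s X) (β * VV α w (j + 1) s X)
      rw [abs_mul, abs_mul, abs_mul, abs_of_pos hp.d0, abs_of_pos hX0] at t2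
      have t3 : |VT α wt j s X| ≤ |FF d α w wt j s X| + X * |VV α w (j + 2) s X| +
          2 * |VV α w (j + 1) s X| := by
        have d1 : d ≤ 1 := hp.d1.trans (by norm_num)
        have q1 := mul_le_mul_of_nonneg_right d1
          (mul_nonneg hX0.le (abs_nonneg (VV α w (j + 2) s X)))
        have q2 := mul_le_mul_of_nonneg_right hβ2 (abs_nonneg (VV α w (j + 1) s X))
        rw [e]; linarith
      have t4 := mul_le_mul_of_nonneg_right t3 pj.le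
      have t5 := mul_le_mul_of_nonneg_left (pow_le_pow_of_le_one hX0.le h.le1 hj)
        (abs_nonneg (VT α wt j s X))
      rw [Real.norm_eq_abs, le_div_iff₀ (by positivity)]
      linarith) (left_mem_Icc.2 ht.1) (right_mem_Icc.2 ht.1)
  rw [Real.norm_eq_abs, Real.norm_eq_abs, abs_of_nonneg (sub_nonneg.2 ht.1)] at key
  refine key.trans ?_
  rw [div_mul_eq_mul_div, div_le_iff₀ (by positivity)]
  have : t - t0 ≤ τ1 := by linarith
  nlinarith [h.τb]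

/-- jets of the barrier -/
def Bb (K T : ℝ) (j : ℕ) (t x : ℝ) : ℝ :=
  pw (-(19 / 20)) j x + K * (T - t) ^ 63 * pw (-63) j x

theorem pw63 (hx : 0 < x) : x ^ (-63 : ℝ) = (x ^ 63)⁻¹ := by
  rw [Real.rpow_neg hx.le]; norm_cast

theorem Bb_zero (K T t : ℝ) (hx : 0 < x) :
    Bb K T 0 t x = x ^ (-(19 / 20) : ℝ) + K * ((T - t) / x) ^ 63 := by
  rw [Bb, pw_zero, pw_zero, pw63 hx, div_pow]; ring

theorem Sm.big (h : Sm C K X τ1) (hx : 0 < x) (hx1 : x ≤ X) :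
    K * 200 ^ 63 ≤ x ^ (-(19 / 20) : ℝ) ∧ x ^ (21 / 10 : ℝ) ≤ x ^ (-(19 / 20) : ℝ) * x ^ 3 / 10 := by
  obtain ⟨s, s0, s1, hs, hp⟩ := root20 hx (hx1.trans h.X1)
  have K1 := h.K1
  obtain ⟨N, hN⟩ : ∃ N : ℝ, N = K * 200 ^ 63 := ⟨_, rfl⟩
  have hN0 : 0 < N := by rw [hN]; positivity
  have s2 : s ≤ 1 / N := by
    have := hx1.trans h.X2
    rw [hs, ← hN] at this
    exact le_of_pow_le_pow_left₀ (by norm_num) (by positivity) this
  rw [(hp (19 / 20) 19 (by norm_num)).2, (hp (21 / 10) 42 (by norm_num)).1, ← hN]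
  constructor
  · rw [le_inv_comm₀ hN0 (by positivity), inv_eq_one_div]
    refine le_trans ?_ s2
    rw [pow_succ]
    exact mul_le_of_le_one_left s0.le (pow_le_one₀ s0.le (s1.trans (by norm_num)))
  · have e : (s ^ 19)⁻¹ * x ^ 3 = s ^ 41 := by rw [hs]; field_simp
    have : 0 < s ^ 41 := by positivity
    rw [e, pow_succ]; nlinarith

theorem bar_alg {a hh g f β d x : ℝ} (hx : 0 < x) (ha : 0 < a) (hh0 : 0 ≤ hh) (d0 : 0 ≤ d)
    (d1 : d ≤ 2 / 10 ^ 6) (hβ : |β - 1| ≤ 1 / 10 ^ 5) (hf : f * x ≤ a / 10)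
    (hg : g * x ≤ 32 * hh + a / 2) {v5 v6 : ℝ}
    (e5 : v5 = -(19 / 20) * a / x + -63 * hh / x)
    (e6 : v6 ≤ -(19 / 20) * (-(19 / 20) - 1) * a / x ^ 2 + -63 * (-63 - 1) * hh / x ^ 2)
    (ht : 0 ≤ f + (d * x * v6 + β * v5) + g) : False := by
  have b6 : x ^ 2 * v6 ≤ 2 * a + 4032 * hh := by
    have := mul_le_mul_of_nonneg_left e6 (pow_pos hx 2).le
    have e : x ^ 2 * (-(19 / 20) * (-(19 / 20) - 1) * a / x ^ 2 + -63 * (-63 - 1) * hh / x ^ 2) =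
        19 / 20 * (39 / 20) * a + 4032 * hh := by field_simp; ring
    linarith
  have b5 : x * v5 = -(19 / 20 * a + 63 * hh) := by rw [e5]; field_simp; ring
  have h1 := mul_nonneg ht hx.le
  have e : (f + (d * x * v6 + β * v5) + g) * x = f * x + d * (x ^ 2 * v6) + β * (x * v5) + g * x := by
    ring
  rw [e, b5] at h1
  have q1 := mul_le_mul_of_nonneg_left b6 d0
  have q2 := mul_le_mul_of_nonneg_right d1 (show 0 ≤ 2 * a + 4032 * hh by positivity)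
  have q3 := mul_le_mul_of_nonneg_right (abs_le.1 hβ).1
    (show 0 ≤ 19 / 20 * a + 63 * hh by positivity)
  nlinarith

end

end Crest.Agent.N207.S.Out
end

-- ▼ part N207/S/Out/Mp
section

/-!
Row 207 (S0320), block OUTER: the maximum principle for `V''''`.
-/

set_option autoImplicit false

open Set Filter
open scoped Topology

namespace Crest.Agent.N207.S.Out

noncomputable section

variable {C K X τ1 e d α t0 t1 xs t T x : ℝ} {w wt k kt : ℕ → ℝ → ℝ → ℝ}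

/-- the barrier inequalities at time `t` -/
def Br (K α T X : ℝ) (w : ℕ → ℝ → ℝ → ℝ) (t : ℝ) : Prop :=
  (∀ x ∈ Icc ((T - t) ^ (21 / 20 : ℝ)) X, |VV α w 4 t x| ≤ Bb K T 0 t x) ∧
    |VV α w 3 t X + 3| ≤ 1 / 200

theorem Sm.of_br (h : Sm C K X τ1) (hp : Par e d α) (hs : Jet t0 t1 xs w wt) (hX : X < xs)
    (ht : t ∈ Icc t0 t1) (hτ : 0 < T - t) (hτX : T - t ≤ X) (hb : Br K α T X w t)
    (hc : Cube α T w t) :
    (∀ y ∈ Icc ((T - t) / 200) X, |VV α w 4 t y| ≤ 2 * y ^ (-(19 / 20) : ℝ)) ∧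
    (∀ y ∈ Icc ((T - t) / 200) X, |VV α w 3 t y + 3| ≤ 1 / 100) ∧ Out T X w t := by
  have hl := (lfacts hτ (hτX.trans h.X1)).2.1
  have h4 : ∀ y ∈ Icc ((T - t) / 200) X, |VV α w 4 t y| ≤ 2 * y ^ (-(19 / 20) : ℝ) := by
    intro y hy
    have y0 : 0 < y := lt_of_lt_of_le (by positivity) hy.1
    have a := hb.1 y ⟨hl.trans hy.1, hy.2⟩
    rw [Bb_zero _ _ _ y0] at a
    have b := (h.big y0 hy.2).1
    have c : ((T - t) / y) ^ 63 ≤ 200 ^ 63 :=
      pow_le_pow_left₀ (by positivity) (by rw [div_le_iff₀ y0]; linarith [hy.1]) _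
    have := mul_le_mul_of_nonneg_left c (zero_le_one.trans h.K1)
    linarith
  have h3 : ∀ y ∈ Icc ((T - t) / 200) X, |VV α w 3 t y + 3| ≤ 1 / 100 := fun y hy =>
    V3_bound (V := fun j => VV α w j t) (a := (T - t) / 200) (by positivity) h.X1
      ((isSeq_V hs ht).mono fun z hz => ⟨lt_of_lt_of_le (by positivity) hz.1, hz.2.trans_lt hX⟩)
      h4 hb.2 hy
  exact ⟨h4, h3, out_of_bounds hp hs ht hτ hτX h.X1 hX h3 hc⟩

theorem isSeq_B (K T t : ℝ) : IsSeq (Ioo 0 xs) fun j => Bb K T j t :=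
  (isSeq_pw _ sub0).add ((isSeq_pw _ sub0).cmul _)

theorem Sm.interior (h : Sm C K X τ1) (hp : Par e d α) (hs : XSol e t0 t1 xs w wt k kt)
    (hX : X < xs) (ht : t ∈ Icc t0 t1) (hI : In C e T X w k t) (hτ : 0 < T - t)
    (hx : x ∈ Icc ((T - t) ^ (21 / 20 : ℝ)) X) {σ : ℝ} (hσ : |σ| = 1)
    (e1 : 0 ≤ σ * VT α wt 4 t x + 63 * K * (T - t) ^ 62 * pw (-63) 0 x)
    (e2 : σ * VV α w 5 t x - Bb K T 1 t x = 0) (e3 : σ * VV α w 6 t x - Bb K T 2 t x ≤ 0) :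
    False := by
  have hl : 0 < (T - t) ^ (21 / 20 : ℝ) := by positivity
  have hx0 : 0 < x := hl.trans_le hx.1
  have K1 := h.K1
  obtain ⟨b1, b2⟩ := h.big hx0 hx.2
  have f4 := h.szF hp hs hX ht hI hτ hx 4 le_rfl
  have c0 : 0 < x ^ (-63 : ℝ) := by positivity
  refine bar_alg (a := x ^ (-(19 / 20) : ℝ)) (hh := K * (T - t) ^ 63 * x ^ (-63 : ℝ))
    (g := 63 * K * (T - t) ^ 62 * pw (-63) 0 x) (f := σ * FF d α w wt 4 t x)
    (β := 1 - d + 2 * d * α + (4 : ℕ) * d) (d := d) hx0 (by positivity) (by positivity)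
    hp.d0.le hp.d1 (hp.bb le_rfl) ?_ ?_ (v5 := σ * VV α w 5 t x) (v6 := σ * VV α w 6 t x)
    ?_ ?_ ?_
  · have a : σ * FF d α w wt 4 t x ≤ |FF d α w wt 4 t x| := by
      refine (le_abs_self _).trans (le_of_eq ?_)
      rw [abs_mul, hσ, one_mul]
    refine (mul_le_mul_of_nonneg_right a hx0.le).trans ?_
    refine le_of_mul_le_mul_right ?_ (pow_pos hx0 3)
    linarith
  · rw [pw_zero]
    generalize T - t = τ at *
    rcases le_total (2 * x) τ with c | c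
    · have : 0 ≤ K * τ ^ 62 * x ^ (-63 : ℝ) := by positivity
      have q := mul_le_mul_of_nonneg_left c this
      have : 0 < x ^ (-(19 / 20) : ℝ) := by positivity
      have : 0 ≤ K * τ ^ 63 * x ^ (-63 : ℝ) := by positivity
      rw [pow_succ τ 62] at this ⊢
      nlinarith
    · have q := pow_le_pow_left₀ hτ.le c 62
      have e : 63 * K * (2 * x) ^ 62 * x ^ (-63 : ℝ) * x = 63 * 2 ^ 62 * K := by
        rw [pw63 hx0]; field_simp
      have q2 := mul_le_mul_of_nonneg_left q (show 0 ≤ 63 * K * x ^ (-63 : ℝ) * x by positivity)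
      have : 0 ≤ K * τ ^ 63 * x ^ (-63 : ℝ) := by positivity
      have q3 : 63 * 2 ^ 62 * K ≤ K * 200 ^ 63 / 2 := by linarith
      linarith
  · simp only [Bb, pw_one _ hx0] at e2
    linear_combination e2
  · simp only [Bb, pw_two _ hx0] at e3
    linear_combination e3
  · refine e1.trans (le_of_eq ?_)
    rw [FF]; ring

theorem Sm.barrier (h : Sm C K X τ1) (hp : Par e d α) (hs : XSol e t0 t1 xs w wt k kt)
    (hX : X < xs) (h01 : t0 ≤ t1) (hT : t1 < T) (hτ : T - t0 ≤ τ1) (hD : Dat α T X w t0)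
    (hc : ∀ s ∈ Icc t0 t1, Cube α T w s)
    (hI : ∀ u ∈ Icc t0 t1, (∀ s ∈ Icc t0 u, Out T X w s) → ∀ s ∈ Icc t0 u, In C e T X w k s) :
    ∀ s ∈ Icc t0 t1, Br K α T X w s := by
  have hX0 := h.X0
  have K1 := h.K1
  have τp : ∀ s, s ≤ t1 → 0 < T - s := fun s a => by linarith
  have τX : ∀ s, t0 ≤ s → T - s ≤ X := fun s a => by linarith [h.τa]
  have lX : ∀ s, t0 ≤ s → s ≤ t1 → (T - s) ^ (21 / 20 : ℝ) < X := fun s a b =>
    (lfacts (τp s b) ((τX s a).trans h.X1)).2.1.trans_lt (by linarith [τX s a])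
  have l0 : ∀ s, s ≤ t1 → 0 < (T - s) ^ (21 / 20 : ℝ) := fun s b => Real.rpow_pos_of_pos (τp s b) _
  obtain ⟨σ, hσ, σ1, σ0⟩ : ∃ σ : Bool → ℝ, (∀ b, |σ b| = 1) ∧ σ true = 1 ∧ σ false = -1 :=
    ⟨fun b => cond b 1 (-1), fun b => by cases b <;> simp, rfl, rfl⟩
  have σle : ∀ b (v : ℝ), σ b * v ≤ |v| := fun b v =>
    (le_abs_self _).trans (le_of_eq (by rw [abs_mul, hσ, one_mul]))
  have toBr : ∀ s, t0 ≤ s → s ≤ t1 → (∀ (j : Bool × Bool) y, (T - s) ^ (21 / 20 : ℝ) ≤ y → y ≤ X →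
      cond j.1 (σ j.2 * VV α w 4 s y - Bb K T 0 s y) (σ j.2 * (VV α w 3 s X + 3) - 1 / 200) ≤ 0) →
      Br K α T X w s := fun s a b hj => by
    refine ⟨fun y hy => ?_, ?_⟩
    · have a1 := hj (true, true) y hy.1 hy.2
      have a2 := hj (true, false) y hy.1 hy.2
      simp only [cond_true, σ1, σ0] at a1 a2
      rw [abs_le]; constructor <;> linarith
    · have a1 := hj (false, true) X (lX s a b).le le_rfl
      have a2 := hj (false, false) X (lX s a b).le le_rfl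
      simp only [cond_false, σ1, σ0] at a1 a2
      rw [abs_le]; constructor <;> linarith
  have hl : ContinuousOn (fun s => (T - s) ^ (21 / 20 : ℝ)) (Icc t0 t1) :=
    (continuousOn_const.sub continuousOn_id).rpow_const fun _ _ => Or.inr (by norm_num)
  have big3 : ∀ y, 0 < y → y ≤ X → 3 ≤ y ^ (-(19 / 20) : ℝ) := fun y a b =>
    le_trans (by linarith) (h.big a b).1
  have key := MP.neg_of_no_touch (ι := Bool × Bool) (l := fun s => (T - s) ^ (21 / 20 : ℝ))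
    (r := fun _ => X) (t0 := t0) (t1 := t1) hl continuousOn_const
    (fun j s y => cond j.1 (σ j.2 * VV α w 4 s y - Bb K T 0 s y)
      (σ j.2 * (VV α w 3 s X + 3) - 1 / 200)) ?_ ?_ ?_ lX
  · exact fun s hs' => toBr s hs'.1 hs'.2 fun j y a b => (key j s y hs'.1 hs'.2 a b).le
  · have hsub : MP.Reg (fun s => (T - s) ^ (21 / 20 : ℝ)) (fun _ => X) t0 t1 ⊆
        Icc t0 t1 ×ˢ Ioo 0 xs := fun p hp' =>
      ⟨⟨hp'.1, hp'.2.1⟩, (l0 _ hp'.2.1).trans_le hp'.2.2.1, hp'.2.2.2.trans_lt hX⟩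
    rintro ⟨_ | _, b⟩
    · refine ContinuousOn.sub (continuousOn_const.mul (ContinuousOn.add ?_ continuousOn_const))
        continuousOn_const
      exact (cont_V hs.jw 3).comp (f := fun p : ℝ × ℝ => (p.1, X)) (by fun_prop)
        fun p hp' => ⟨(hsub hp').1, hX0, hX⟩
    · refine ContinuousOn.mono (ContinuousOn.sub (continuousOn_const.mul (cont_V hs.jw 4))
        ((cont_pw _ 0).add (ContinuousOn.mul (by fun_prop) (cont_pw _ 0)))) hsub
  · rintro ⟨_ | _, b⟩ y a1 a2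
    · have := σle b (VV α w 3 t0 X + 3)
      simp only [cond_false]
      linarith [hD.2]
    · have := σle b (VV α w 4 t0 y)
      have a3 := hD.1 y ⟨a1, a2⟩
      have y0 : 0 < y := (l0 t0 h01).trans_le a1
      have := big3 y y0 a2
      have q : 0 ≤ ((T - t0) / y) ^ 63 := by have := τp t0 h01; positivity
      simp only [cond_true, Bb_zero _ _ _ y0]
      nlinarith
  intro j t x a1 a2 a3 a4 hz hP
  have ht : t ∈ Icc t0 t1 := ⟨a1.le, a2⟩
  have hIn : ∀ s ∈ Icc t0 t, In C e T X w k s := hI t ht fun s hs' =>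
    (h.of_br hp hs.jw hX ⟨hs'.1, hs'.2.trans a2⟩ (τp s (hs'.2.trans a2)) (τX s hs'.1)
      (toBr s hs'.1 (hs'.2.trans a2) fun j y => hP j s y hs'.1 hs'.2)
      (hc s ⟨hs'.1, hs'.2.trans a2⟩)).2.2
  have hIt := hIn t ⟨a1.le, le_rfl⟩
  have x0 : 0 < x := (l0 t a2).trans_le a3
  obtain ⟨_ | _, b⟩ := j
  · have := h.timeX hp hs hX ht (a2.trans_lt hT) hτ hIn (j := 3) (by norm_num)
    have q := σle b (VV α w 3 t X + 3)
    have q2 := abs_add_le (VV α w 3 t X - VV α w 3 t0 X) (VV α w 3 t0 X + 3)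
    rw [show VV α w 3 t X - VV α w 3 t0 X + (VV α w 3 t0 X + 3) = VV α w 3 t X + 3 by ring] at q2
    simp only [cond_false] at hz
    linarith [hD.2]
  simp only [cond_true] at hz
  have q := σle b (VV α w 4 t x)
  have q0 : 0 ≤ K * ((T - t) / x) ^ 63 := by have := τp t a2; positivity
  rcases a3.eq_or_lt with a3' | a3'
  · have v := h.szV hp hIt (τp t a2) ⟨a3, a4⟩ 4 (by norm_num)
    have e1 := (lfacts (τp t a2) ((τX t a1.le).trans h.X1)).2.2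
    rw [a3'] at e1
    have e2 : K * ((T - t) / x) ^ 63 * x ^ 4 = K * x := by rw [div_pow, ← e1]; field_simp
    have v' : |VV α w 4 t x| ≤ K * ((T - t) / x) ^ 63 :=
      le_of_mul_le_mul_right (by rw [e2]; exact v) (pow_pos x0 4)
    rw [Bb_zero _ _ _ x0] at hz
    linarith [big3 x x0 a4]
  rcases a4.eq_or_lt with a4' | a4'
  · subst a4'
    have := h.timeX hp hs hX ht (a2.trans_lt hT) hτ hIn (j := 4) le_rfl
    have q2 := abs_add_le (VV α w 4 t x - VV α w 4 t0 x) (VV α w 4 t0 x)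
    rw [sub_add_cancel] at q2
    have q3 := hD.1 x ⟨(lX t0 le_rfl (a1.le.trans a2)).le, le_rfl⟩
    have q4 : ((T - t0) / x) ^ 63 ≤ 1 := pow_le_one₀
      (div_nonneg (τp t0 (a1.le.trans a2)).le x0.le) ((div_le_one x0).2 (τX t0 le_rfl))
    rw [Bb_zero _ _ _ x0] at hz
    linarith [big3 x x0 a4]
  have hV := isSeq_V (α := α) hs.jw ht
  have hB := isSeq_B (xs := xs) K T t
  have hxs : x ∈ Ioo 0 xs := ⟨x0, a4'.trans hX⟩
  obtain ⟨e1, e2, e3⟩ := MP.touch_interior (l := fun s => (T - s) ^ (21 / 20 : ℝ))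
    (r := fun _ => X) (f := fun s y => σ b * VV α w 4 s y - Bb K T 0 s y)
    (ft := fun s y => σ b * VT α wt 4 s y + 63 * K * (T - s) ^ 62 * pw (-63) 0 y)
    (fx := fun s y => σ b * VV α w 5 s y - Bb K T 1 s y)
    (fxx := fun s y => σ b * VV α w 6 s y - Bb K T 2 s y) hl continuousOn_const a1 a2 a3' a4'
    (by
      have d1 : HasDerivWithinAt (fun s => VV α w 4 s x) (VT α wt 4 t x) (Iic t) t :=
        (dt_V hs.jw ht hxs 4).mono_of_mem_nhdsWithin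
          (mem_of_superset (Icc_mem_nhdsLE a1) (Icc_subset_Icc le_rfl a2))
      have d2 := ((((((hasDerivAt_id t).const_sub T).pow 63).const_mul K).mul_const
        (pw (-63) 0 x)).const_add (pw (-(19 / 20)) 0 x)).hasDerivWithinAt (s := Iic t)
      refine ((d1.const_mul (σ b)).sub d2).congr_deriv ?_
      simp only [id]
      push_cast
      ring)
    (fun y c1 c2 => ((hV 4 y ⟨(l0 t a2).trans c1, c2.trans hX⟩).const_mul (σ b)).sub
      (hB 0 y ⟨(l0 t a2).trans c1, c2.trans hX⟩))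
    (((hV 5 x hxs).const_mul (σ b)).sub (hB 1 x hxs)) hz (hP (true, b))
  exact h.interior hp hs hX ht hIt (τp t a2) ⟨a3, a4⟩ (hσ b) e1 e2 e3

end

end Crest.Agent.N207.S.Out
end

-- ▼ part N207/S/Out/Tr
section

/-!
Row 207 (S0320), block OUTER: transversality of the exit and the final statement `outerStmt`.
-/

set_option autoImplicit false

open Set Filter
open scoped Topology

namespace Crest.Agent.N207.S.Out

noncomputable section

variable {C K X τ1 e d α t0 t1 xs t T x : ℝ} {w wt k kt : ℕ → ℝ → ℝ → ℝ}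

theorem dt_diag (h : Jet t0 t1 xs w wt) (ht : t ∈ Icc t0 t1) (hT : t1 < T) (hxs : T - t0 < xs)
    (j : ℕ) : HasDerivWithinAt (fun s => VV α w j s (T - s))
      (VT α wt j t (T - t) - VV α w (j + 1) t (T - t)) (Icc t0 t1) t := by
  have hm : ∀ s ∈ Icc t0 t1, T - s ∈ Ioo 0 xs := fun s hs =>
    ⟨by linarith [hs.2], by linarith [hs.1]⟩
  have F := X.hasFDerivWithinAt_of_partial (convex_Icc t0 t1) (u := VV α w j) (Φ := VT α wt j)
    (U := Ioo 0 xs) (fun s hs y hy => dt_V h hs hy j) (cont_VT h j) ht (hm t ht)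
    (isSeq_V h ht j _ (hm t ht)).hasFDerivAt
  have c : HasDerivWithinAt (fun s : ℝ => (s, T - s)) ((1 : ℝ), (-1 : ℝ)) (Icc t0 t1) t :=
    ((hasDerivAt_id t).prodMk ((hasDerivAt_id t).const_sub T)).hasDerivWithinAt
  have := HasFDerivWithinAt.comp_hasDerivWithinAt (f := fun s : ℝ => (s, T - s)) t F c
    fun s hs => mk_mem_prod hs (hm s hs)
  refine this.congr_deriv ?_
  simp
  ring

theorem out_dir {f : ℝ → ℝ} {f' η : ℝ} (h : HasDerivWithinAt f f' (Icc t0 t1) t) (h0 : t0 ≤ t)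
    (h1 : t < t1) (hη : |f t| = η) (hp : 0 < f t * f') : ∃ s, t < s ∧ s ≤ t1 ∧ η < |f s| := by
  have a := ((h.const_mul (f t)).mono (show Ioc t t1 ⊆ Icc t0 t1 from
    fun s hs => ⟨h0.trans hs.1.le, hs.2⟩))
  rw [hasDerivWithinAt_iff_tendsto_slope' (by simp)] at a
  have : (𝓝[Ioc t t1] t).NeBot := by rw [nhdsWithin_Ioc_eq_nhdsGT h1]; infer_instance
  obtain ⟨s, b, c⟩ := ((a.eventually (lt_mem_nhds hp)).and self_mem_nhdsWithin).exists
  refine ⟨s, c.1, c.2, ?_⟩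
  rw [slope_def_field, lt_div_iff₀ (sub_pos.2 c.1), zero_mul] at b
  have q := le_abs_self (f t * f s)
  rw [abs_mul, hη] at q
  have q2 := abs_mul_abs_self (f t)
  rw [hη] at q2
  by_contra hc
  have := mul_le_mul_of_nonneg_left (not_lt.1 hc) (hη ▸ abs_nonneg (f t))
  linarith

theorem Sm.trans (h : Sm C K X τ1) (hp : Par e d α) (hs : XSol e t0 t1 xs w wt k kt)
    (hX : X < xs) (h0 : t0 ≤ t) (h1 : t < t1) (hT : t1 < T) (hτ : T - t0 ≤ τ1)
    (hb : Br K α T X w t) (hc : Cube α T w t) (hI : In C e T X w k t) {j : ℕ} (hj : j < 3)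
    (hn : |nn α T w j t| = 1 / 100) : ∃ s, t < s ∧ s ≤ t1 ∧ 1 / 100 < |nn α T w j s| := by
  have ht : t ∈ Icc t0 t1 := ⟨h0, h1.le⟩
  have τ0 : 0 < T - t := by linarith
  have τX : T - t ≤ X := by linarith [h.τa]
  have d1 := dt_diag (α := α) hs.jw ht hT (by linarith [h.τa]) j
  obtain ⟨m, hm⟩ : ∃ m, 3 - j = m + 1 := ⟨2 - j, by omega⟩
  have d2 := (((hasDerivAt_id t).const_sub T).pow (m + 1)).hasDerivWithinAt (s := Icc t0 t1)
  have d3 := d1.div d2 (pow_pos τ0 _).ne'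
  have e0 : ∀ s, nn α T w j s = VV α w j s (T - s) / (T - s) ^ (m + 1) := fun s => by rw [nn, hm]
  refine out_dir (f := nn α T w j) (d3.congr (fun s _ => e0 s) (e0 t)) h0 h1 hn ?_
  obtain ⟨h4, h3, -⟩ := h.of_br hp hs.jw hX ht τ0 τX hb hc
  have hm' : T - t ∈ Icc ((T - t) / 200) X := ⟨by linarith, τX⟩
  have a4 := h4 _ hm'
  have a3 := h3 _ hm'
  obtain ⟨a0, a1, a2⟩ := hc.abs τ0
  have f := h.szF hp hs hX ht hI τ0
    ⟨(lfacts τ0 (τX.trans h.X1)).2.1.trans (by linarith), τX⟩ j (by omega)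
  have hβ := hp.bb (j := j) (by omega)
  have eF : VT α wt j t (T - t) - VV α w (j + 1) t (T - t) = FF d α w wt j t (T - t) +
      (d * (T - t) * VV α w (j + 2) t (T - t) +
        (1 - d + 2 * d * α + j * d - 1) * VV α w (j + 1) t (T - t)) := by rw [FF]; ring
  have eV : VV α w j t (T - t) = nn α T w j t * (T - t) ^ (m + 1) := by
    rw [e0, div_mul_cancel₀ _ (pow_pos τ0 _).ne']
  have e3 : (T - t) ^ (m + 1) * (T - t) ^ j = (T - t) ^ 3 := by
    rw [← pow_add]; congr 1; omega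
  simp only [id, Pi.pow_apply, Nat.add_sub_cancel]
  rw [eF, eV]
  obtain ⟨s, s0, s1, hs', hpw⟩ := root20 τ0 (τX.trans h.X1)
  rw [(hpw (19 / 20) 19 (by norm_num)).2] at a4
  rw [(hpw (21 / 10) 42 (by norm_num)).1] at f
  have sz : Sz 4 (4 * (T - t) ^ 3) (fun i => VV α w i t) (T - t) := by
    have p3 := pow_pos τ0 3
    intro i hi
    interval_cases i
    · simp only [pow_zero, mul_one]; linarith
    · nlinarith [mul_le_mul_of_nonneg_right a1 τ0.le]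
    · nlinarith [mul_le_mul_of_nonneg_right a2 (pow_pos τ0 2).le]
    · have := abs_sub (VV α w 3 t (T - t) + 3) 3
      rw [add_sub_cancel_right, abs_of_pos (show (0 : ℝ) < 3 by norm_num)] at this
      nlinarith
    · refine (mul_le_mul_of_nonneg_right a4 (pow_pos τ0 4).le).trans ?_
      have : 2 * (s ^ 19)⁻¹ * (T - t) ^ 4 = 2 * s * (T - t) ^ 3 := by rw [hs']; field_simp
      rw [this]
      nlinarith
  have v1 := sz (j + 1) (by omega)
  have v2 := sz (j + 2) (by omega)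
  have f' : |FF d α w wt j t (T - t)| * (T - t) ^ (j + 1) ≤ (T - t) ^ 3 / 1000 := by
    rw [pow_succ, ← mul_assoc]
    refine (mul_le_mul_of_nonneg_right f τ0.le).trans ?_
    have : s ^ 42 * (T - t) = s * s * (T - t) ^ 3 := by rw [hs']; ring
    rw [this]
    have : s * s ≤ 1 / 1000 := by nlinarith
    nlinarith [pow_pos τ0 3]
  simp only at v1 v2
  generalize T - t = τ at *
  generalize 1 - d + 2 * d * α + j * d - 1 = β at *
  generalize nn α T w j t = n at *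
  generalize FF d α w wt j t τ = F at *
  generalize VV α w (j + 1) t τ = V1 at *
  generalize VV α w (j + 2) t τ = V2 at *
  have b1 : |F + (d * τ * V2 + β * V1)| * τ ^ (j + 1) ≤ τ ^ 3 / 200 := by
    have t1 := abs_add_le F (d * τ * V2 + β * V1)
    have t2 := abs_add_le (d * τ * V2) (β * V1)
    rw [abs_mul, abs_mul, abs_mul, abs_of_pos hp.d0, abs_of_pos τ0] at t2
    have p := pow_pos τ0 (j + 1)
    have q1 := mul_le_mul_of_nonneg_right (t1.trans (add_le_add le_rfl t2)) p.le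
    have q2 : d * (|V2| * τ ^ (j + 2)) ≤ 2 / 10 ^ 6 * (4 * τ ^ 3) :=
      mul_le_mul hp.d1 v2 (by positivity) (by norm_num)
    have q3 : |β| * (|V1| * τ ^ (j + 1)) ≤ 1 / 10 ^ 5 * (4 * τ ^ 3) :=
      mul_le_mul hβ v1 (by positivity) (by norm_num)
    rw [pow_succ τ (j + 1)] at q2
    nlinarith [pow_pos τ0 3]
  generalize F + (d * τ * V2 + β * V1) = E at *
  have b2 : |E| ≤ τ ^ m / 200 := by
    refine le_of_mul_le_mul_right (b1.trans (le_of_eq ?_)) (pow_pos τ0 (j + 1))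
    rw [← e3]; ring
  have pm := pow_pos τ0 m
  have e4 : n * ((E * τ ^ (m + 1) - n * τ ^ (m + 1) * (((m + 1 : ℕ) : ℝ) * τ ^ m * -1)) /
      (τ ^ (m + 1)) ^ 2) = (n * E + n * n * (m + 1) * τ ^ m) / τ ^ (m + 1) := by
    push_cast
    field_simp
    ring
  rw [e4]
  refine div_pos ?_ (pow_pos τ0 _)
  have q := neg_abs_le (n * E)
  rw [abs_mul, hn] at q
  have q2 := abs_mul_abs_self n
  rw [hn] at q2
  rw [← q2]
  have : (0 : ℝ) ≤ m := Nat.cast_nonneg m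
  nlinarith

/-- **Block OUTER.** -/
theorem outerStmt : OuterStmt := by
  intro C hC
  obtain ⟨K, X0, hX0, H⟩ := exists_sm C hC
  refine ⟨X0, hX0, fun X a b => ?_⟩
  obtain ⟨τ1, h⟩ := H X a b
  refine ⟨τ1, h.τ0, h.τa, fun e d α t0 t t' T xs w wt k kt hp hX hs h0 h1 hT hτ hD hc hI => ?_⟩
  have hb := h.barrier hp (hs.mono le_rfl h1) hX h0 (h1.trans_lt hT) hτ hD hc hI
  have ho : ∀ s ∈ Icc t0 t, Out T X w s := fun s hs' =>
    (h.of_br hp hs.jw hX ⟨hs'.1, hs'.2.trans h1⟩ (by linarith [hs'.2])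
      (by linarith [hs'.1, h.τa]) (hb s hs') (hc s hs')).2.2
  have ht : t ∈ Icc t0 t := ⟨h0, le_rfl⟩
  exact ⟨ho, fun h2 j hj hn =>
    h.trans hp hs hX h0 h2 hT hτ (hb t ht) (hc t ht) (hI t ht ho t ht) hj hn⟩

end

end Crest.Agent.N207.S.Out
end

-- ▼ part N207/S/I1/C
section

/-!
Row 207 (S0320), block I1 (c): the barrier `x^(3/4) + τ^(3/2) x^(-11/20)` for `z - z0`.
-/

set_option autoImplicit false

open Set

namespace Crest.Agent.N207.S.I1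

open MP

variable {e t0 t1 xs T : ℝ} {w wt k kt : ℕ → ℝ → ℝ → ℝ}

/-- `z - z0` with `z = 1 - x k`, `z0 = 1 / (1 + 2 e)`. -/
noncomputable def ze (e x k0 : ℝ) : ℝ := 1 - x * k0 - 1 / (1 + 2 * e)

/-- The equation of `ze`, multiplied by `x`. -/
theorem ze_eq {e x w0 w1 k0 k1 k2 : ℝ} (he : 0 ≤ e) (hw : w0 ≠ 0) :
    x * (-(x * rhsK e x w0 w1 k0 k1 k2)) =
      2 * e * (1 - x * k0) * (x ^ 2 * (-(2 * k1 + x * k2))) + x * (-(k0 + x * k1)) -
        e * (x * (-(k0 + x * k1))) ^ 2 - (1 - x * k0) * (1 + 2 * e) * ze e x k0 -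
        2 * e * (1 - x * k0) ^ 2 * (x ^ 2 * w1 ^ 2 / w0 ^ 2 - 1) := by
  have : (1 + 2 * e) ≠ 0 := by positivity
  simp only [rhsK, ze]
  field_simp
  ring

/-- The algebra at a touching point (both signs `σ = ±1`). -/
theorem alg_c {e z σ B1 B2 g g1 g2 S gt : ℝ} (he : 0 ≤ e) (he1 : e ≤ 1 / 100)
    (hσ : σ = 1 ∨ σ = -1) (z0 : 99 / 100 ≤ z) (z1 : z ≤ 101 / 100) (hB1 : 0 < B1) (hB2 : 0 < B2)
    (hg : |g| ≤ 3 / 100) (e0 : σ * g = B1 + B2) (e2 : σ * g1 = 3 / 4 * B1 - 11 / 20 * B2)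
    (e3 : σ * g2 ≤ 3 / 4 * (3 / 4 - 1) * B1 + 11 / 20 * (11 / 20 + 1) * B2)
    (hS : e * |S| ≤ (B1 + B2) / 30)
    (eq : gt = 2 * e * z * g2 + g1 - e * g1 ^ 2 - z * (1 + 2 * e) * g - 2 * e * z ^ 2 * S)
    (e1 : -(B1 / 10 + 3 / 4 * B2) ≤ σ * gt) : False := by
  have hσa : |σ| = 1 := by rcases hσ with h | h <;> simp [h]
  have hσ2 : σ ^ 2 = 1 := by rcases hσ with h | h <;> simp [h]
  have hσl : -1 ≤ σ := by rcases hσ with h | h <;> simp [h]
  have hB : B1 + B2 ≤ 3 / 100 := by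
    have : σ * g ≤ |σ * g| := le_abs_self _
    rw [abs_mul, hσa, one_mul] at this
    linarith
  have ez0 : 0 ≤ e * z := mul_nonneg he (by linarith)
  have ez1 : e * z ≤ 1 / 50 := by nlinarith
  have a1 : 2 * (e * z) * (σ * g2) ≤ 2 * (e * z) * B2 :=
    mul_le_mul_of_nonneg_left (by linarith) (by linarith)
  have a1' : 2 * (e * z) * B2 ≤ 1 / 25 * B2 :=
    mul_le_mul_of_nonneg_right (by linarith) hB2.le
  have a2 : g1 ^ 2 ≤ (B1 + B2) ^ 2 := by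
    have : g1 ^ 2 = (σ * g1) ^ 2 := by rw [mul_pow, hσ2, one_mul]
    rw [this, e2]
    exact sq_le_sq' (by linarith) (by linarith)
  have a3 : (B1 + B2) ^ 2 ≤ 3 / 100 * (B1 + B2) := by nlinarith
  have a4 : -(σ * (e * g1 ^ 2)) ≤ 1 / 100 * (B1 + B2) := by
    have h1 : 0 ≤ e * g1 ^ 2 := by positivity
    have h2 : e * g1 ^ 2 ≤ 1 / 100 * (3 / 100 * (B1 + B2)) :=
      mul_le_mul he1 (a2.trans a3) (sq_nonneg _) (by norm_num)
    nlinarith
  have a5 : 99 / 100 * (B1 + B2) ≤ z * (1 + 2 * e) * (B1 + B2) :=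
    mul_le_mul_of_nonneg_right (by nlinarith) (by linarith)
  have a6 : -(σ * (2 * e * z ^ 2 * S)) ≤ 7 / 100 * (B1 + B2) := by
    have h1 : -(σ * S) ≤ |S| := by
      have := neg_abs_le (σ * S)
      rw [abs_mul, hσa, one_mul] at this
      linarith
    have h2 : e * -(σ * S) ≤ (B1 + B2) / 30 := (mul_le_mul_of_nonneg_left h1 he).trans hS
    have h3 : 2 * z ^ 2 ≤ 21 / 10 := by nlinarith
    have h4 : 2 * z ^ 2 * (e * -(σ * S)) ≤ 2 * z ^ 2 * ((B1 + B2) / 30) :=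
      mul_le_mul_of_nonneg_left h2 (by positivity)
    have h5 : 2 * z ^ 2 * ((B1 + B2) / 30) ≤ 21 / 10 * ((B1 + B2) / 30) :=
      mul_le_mul_of_nonneg_right h3 (by linarith)
    nlinarith
  have a7 : σ * gt = 2 * (e * z) * (σ * g2) + σ * g1 - σ * (e * g1 ^ 2) -
      z * (1 + 2 * e) * (σ * g) - σ * (2 * e * z ^ 2 * S) := by rw [eq]; ring
  rw [a7, e0, e2] at e1
  linarith

/-- The time derivative of the barrier is absorbed. -/
theorem time_term {K τ x : ℝ} (hK : 0 ≤ K) (hK2 : K ≤ 2) (hτ : 0 < τ) (hx : 0 < x)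
    (hx1 : x ≤ 1 / 10 ^ 10) :
    x * (K * (3 / 2 * τ ^ (3 / 2 : ℝ) / τ) * x ^ (-(11 / 20 : ℝ))) ≤
      x ^ (3 / 4 : ℝ) / 10 + 3 / 4 * (K * τ ^ (3 / 2 : ℝ) * x ^ (-(11 / 20 : ℝ))) := by
  have p1 : 0 < x ^ (3 / 4 : ℝ) := Real.rpow_pos_of_pos hx _
  have p2 : 0 < x ^ (-(11 / 20 : ℝ)) := Real.rpow_pos_of_pos hx _
  have p3 : 0 < τ ^ (3 / 2 : ℝ) := Real.rpow_pos_of_pos hτ _
  have p4 : 0 ≤ K * τ ^ (3 / 2 : ℝ) * x ^ (-(11 / 20 : ℝ)) := by positivity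
  have e1 : x * (K * (3 / 2 * τ ^ (3 / 2 : ℝ) / τ) * x ^ (-(11 / 20 : ℝ))) =
      3 / 2 * (x / τ) * (K * τ ^ (3 / 2 : ℝ) * x ^ (-(11 / 20 : ℝ))) := by
    field_simp
  by_cases hc : x ≤ τ / 2
  · have : x / τ ≤ 1 / 2 := by rw [div_le_iff₀ hτ]; linarith
    rw [e1]
    nlinarith [mul_le_mul_of_nonneg_right this p4]
  · have hc' : τ ≤ 4 * x := by linarith [not_le.1 hc]
    have f1 : τ ^ (3 / 2 : ℝ) / τ = τ ^ (1 / 2 : ℝ) := by
      rw [← Real.rpow_sub_one hτ.ne']; norm_num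
    have f2 : τ ^ (1 / 2 : ℝ) ≤ 2 * x ^ (1 / 2 : ℝ) := by
      calc τ ^ (1 / 2 : ℝ) ≤ (4 * x) ^ (1 / 2 : ℝ) :=
            Real.rpow_le_rpow hτ.le hc' (by norm_num)
        _ = 2 * x ^ (1 / 2 : ℝ) := by
            rw [Real.mul_rpow (by norm_num) hx.le]
            congr 1
            rw [show (4 : ℝ) = 2 ^ (2 : ℝ) by norm_num, ← Real.rpow_mul (by norm_num)]
            norm_num
    have f3 : x * x ^ (1 / 2 : ℝ) * x ^ (-(11 / 20 : ℝ)) = x ^ (3 / 4 : ℝ) * x ^ (1 / 5 : ℝ) := by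
      rw [← Real.rpow_add hx, ← Real.rpow_one_add' hx.le (by norm_num), ← Real.rpow_add hx]
      norm_num
    have f4 : x ^ (1 / 5 : ℝ) ≤ 1 / 100 := by
      calc x ^ (1 / 5 : ℝ) ≤ ((1 / 100 : ℝ) ^ (5 : ℝ)) ^ (1 / 5 : ℝ) :=
            Real.rpow_le_rpow hx.le (by norm_num at hx1 ⊢; linarith) (by norm_num)
        _ = 1 / 100 := by rw [← Real.rpow_mul (by norm_num)]; norm_num
    have f5 : x * (K * (3 / 2 * τ ^ (3 / 2 : ℝ) / τ) * x ^ (-(11 / 20 : ℝ))) =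
        3 / 2 * (K * τ ^ (1 / 2 : ℝ)) * (x * x ^ (-(11 / 20 : ℝ))) := by
      rw [← f1]; ring
    have f6 : K * τ ^ (1 / 2 : ℝ) ≤ 2 * (2 * x ^ (1 / 2 : ℝ)) :=
      mul_le_mul hK2 f2 (Real.rpow_nonneg hτ.le _) (by norm_num)
    have f7 : 3 / 2 * (K * τ ^ (1 / 2 : ℝ)) * (x * x ^ (-(11 / 20 : ℝ))) ≤
        3 / 2 * (2 * (2 * x ^ (1 / 2 : ℝ))) * (x * x ^ (-(11 / 20 : ℝ))) :=
      mul_le_mul_of_nonneg_right (by linarith) (by positivity)
    have f8 : x ^ (3 / 4 : ℝ) * x ^ (1 / 5 : ℝ) ≤ x ^ (3 / 4 : ℝ) * (1 / 100) :=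
      mul_le_mul_of_nonneg_left f4 p1.le
    rw [f5]
    nlinarith

theorem hasDeriv_tau32 {K T t : ℝ} (h : t < T) :
    HasDerivAt (fun s => K * (T - s) ^ (3 / 2 : ℝ))
      (-(K * (3 / 2 * (T - t) ^ (3 / 2 : ℝ) / (T - t)))) t := by
  have h1 := (hasDerivAt_rpow_div (sub_pos.2 h) (3 / 2 : ℝ)).comp t
    ((hasDerivAt_id t).const_sub T)
  refine (h1.const_mul K).congr_deriv ?_
  ring

/-- (c), strict form with a factor `1 ≤ K ≤ 2`. -/
theorem zeBar_lt (h : XSol e t0 t1 xs w wt k kt) (he : 0 ≤ e) (he1 : e ≤ 1 / 100) (h01 : t0 ≤ t1)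
    (hT : t1 < T) (hxs0 : 0 < xs) (hxs : xs ≤ 1 / 10 ^ 10) {K : ℝ} (hK : 1 ≤ K) (hK2 : K ≤ 2)
    (hk : ∀ t x, t ∈ Icc t0 t1 → x ∈ Icc 0 xs → |x * k 0 t x| ≤ 1 / 100)
    (hS : ∀ t x, t ∈ Icc t0 t1 → 0 < x → x ≤ xs →
      e * |x ^ 2 * w 1 t x ^ 2 / w 0 t x ^ 2 - 1| ≤
        (x ^ (3 / 4 : ℝ) + (T - t) ^ (3 / 2 : ℝ) * x ^ (-(11 / 20 : ℝ))) / 30)
    (h0 : ∀ x, 0 < x → x ≤ xs → |ze e x (k 0 t0 x)| <
      x ^ (3 / 4 : ℝ) + K * (T - t0) ^ (3 / 2 : ℝ) * x ^ (-(11 / 20 : ℝ)))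
    (hr : ∀ t, t ∈ Icc t0 t1 → |ze e xs (k 0 t xs)| ≤ xs ^ (3 / 4 : ℝ)) :
    ∀ t x, t ∈ Icc t0 t1 → 0 < x → x ≤ xs → |ze e x (k 0 t x)| <
      x ^ (3 / 4 : ℝ) + K * (T - t) ^ (3 / 2 : ℝ) * x ^ (-(11 / 20 : ℝ)) := by
  let σ : Bool → ℝ := fun b => if b then 1 else -1
  have hσ : ∀ b, σ b = 1 ∨ σ b = -1 := fun b => by cases b <;> simp [σ]
  have hσa : ∀ b g, σ b * g ≤ |g| := fun b g => by
    rcases hσ b with h | h <;> rw [h]
    · linarith [le_abs_self g]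
    · linarith [neg_abs_le g]
  have hs0 : ∀ t, t ≤ t1 → 0 < K * (T - t) ^ (3 / 2 : ℝ) := fun t b =>
    mul_pos (by linarith) (Real.rpow_pos_of_pos (by linarith) _)
  have hsub : Reg (fun _ => 0) (fun _ => xs) t0 t1 ⊆ Icc t0 t1 ×ˢ Icc 0 xs :=
    fun p hp => ⟨⟨hp.1, hp.2.1⟩, hp.2.2⟩
  have main := mp_sing (ι := Bool) (r := fun _ => xs) (s := fun t => K * (T - t) ^ (3 / 2 : ℝ))
    (st := fun t => -(K * (3 / 2 * (T - t) ^ (3 / 2 : ℝ) / (T - t)))) (a := 11 / 20)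
    (b := 3 / 4) (K := 1) h01 (by norm_num) (by norm_num) continuousOn_const (fun _ _ _ => hxs0)
    (continuousOn_const.mul ((continuousOn_const.sub continuousOn_id).rpow_const
      fun _ _ => Or.inr (by norm_num))) (fun t _ b => hs0 t b)
    (fun t _ b => (hasDeriv_tau32 (by linarith)).hasDerivWithinAt)
    (fun i t x => σ i * ze e x (k 0 t x)) (fun i t x => σ i * -(x * kt 0 t x))
    (fun i t x => σ i * -(k 0 t x + x * k 1 t x))
    (fun i t x => σ i * -(2 * k 1 t x + x * k 2 t x)) ?_ ?_ ?_ ?_ ?_ ?_ ?_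
  · intro t x ht a b
    have h1 := main true t x ht.1 ht.2 a b
    have h2 := main false t x ht.1 ht.2 a b
    simp only [σ, if_true, Bool.false_eq_true, if_false] at h1 h2
    rw [abs_lt]; constructor <;> linarith
  · intro i
    refine continuousOn_const.mul ?_
    exact (continuousOn_const.sub (continuousOn_snd.mul ((h.jk.cu 0).mono hsub))).sub
      continuousOn_const
  · intro i t x a b c d
    exact ((((jet_dt h.jk 0 a b c.le d.le).const_mul x).const_sub 1).sub_const _).const_mul _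
  · intro i t x a b c d
    have := ((((hasDerivAt_id x).mul (jet_dx h.jk 0 a.le b c d)).const_sub 1).sub_const
      (1 / (1 + 2 * e))).const_mul (σ i)
    refine this.congr_deriv ?_
    simp only [id]; ring
  · intro i t x a b c d
    have := ((jet_dx h.jk 0 a.le b c d).add
      ((hasDerivAt_id x).mul (jet_dx h.jk 1 a.le b c d))).neg.const_mul (σ i)
    refine this.congr_deriv ?_
    simp only [id]; ring
  · intro i x a b
    linarith [hσa i (ze e x (k 0 t0 x)), h0 x a b]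
  · intro i t x a b u d e0 e1 e2 e3
    have hx : x ∈ Icc 0 xs := ⟨u.le, d.le⟩
    have hw := h.pos t x ⟨a.le, b⟩ hx
    have hk' := abs_le.1 (hk t x ⟨a.le, b⟩ hx)
    have hτ : 0 < T - t := by linarith
    have p1 : 0 < x ^ (3 / 4 : ℝ) := Real.rpow_pos_of_pos u _
    have p2 : 0 < x ^ (-(11 / 20 : ℝ)) := Real.rpow_pos_of_pos u _
    have p3 : 0 < (T - t) ^ (3 / 2 : ℝ) := Real.rpow_pos_of_pos hτ _
    have tt := time_term (K := K) (by linarith) hK2 hτ u (d.le.trans hxs)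
    have hz0 : 1 - 2 * e ≤ 1 / (1 + 2 * e) := by
      rw [le_div_iff₀ (by positivity)]; nlinarith
    have hz1 : 1 / (1 + 2 * e) ≤ 1 := by
      rw [div_le_one (by positivity)]; linarith
    have hg : |ze e x (k 0 t x)| ≤ 3 / 100 := by
      rw [ze, abs_le]; constructor <;> linarith
    have hS' := hS t x ⟨a.le, b⟩ u d.le
    have hK' : (T - t) ^ (3 / 2 : ℝ) * x ^ (-(11 / 20 : ℝ)) ≤
        K * (T - t) ^ (3 / 2 : ℝ) * x ^ (-(11 / 20 : ℝ)) := by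
      rw [mul_assoc]; exact le_mul_of_one_le_left (by positivity) hK
    have e1' := mul_le_mul_of_nonneg_left e1 u.le
    rw [h.eqK t x ⟨a.le, b⟩ hx] at e1'
    rw [one_mul] at e0 e2 e3
    refine alg_c (z := 1 - x * k 0 t x) (g := ze e x (k 0 t x))
      (g1 := x * -(k 0 t x + x * k 1 t x)) (g2 := x ^ 2 * -(2 * k 1 t x + x * k 2 t x))
      (B1 := x ^ (3 / 4 : ℝ)) (B2 := K * (T - t) ^ (3 / 2 : ℝ) * x ^ (-(11 / 20 : ℝ)))
      he he1 (hσ i) (by linarith) (by linarith) p1 (mul_pos (hs0 t b) p2) hg e0 (by linarith)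
      (by linarith) (by linarith) (ze_eq (w1 := w 1 t x) he hw.ne') (by linarith)
  · intro i t a b
    have := mul_pos (hs0 t b) (Real.rpow_pos_of_pos hxs0 (-(11 / 20 : ℝ)))
    linarith [hσa i (ze e xs (k 0 t xs)), hr t ⟨a.le, b⟩]

/-- (c): `|z - z0| ≤ x^(3/4) + τ^(3/2) x^(-11/20)` on `0 < x ≤ xs`. -/
theorem zeBar (h : XSol e t0 t1 xs w wt k kt) (he : 0 ≤ e) (he1 : e ≤ 1 / 100)
    (hT : t1 < T) (hxs0 : 0 < xs) (hxs : xs ≤ 1 / 10 ^ 10)
    (hk : ∀ t x, t ∈ Icc t0 t1 → x ∈ Icc 0 xs → |x * k 0 t x| ≤ 1 / 100)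
    (hS : ∀ t x, t ∈ Icc t0 t1 → 0 < x → x ≤ xs →
      e * |x ^ 2 * w 1 t x ^ 2 / w 0 t x ^ 2 - 1| ≤
        (x ^ (3 / 4 : ℝ) + (T - t) ^ (3 / 2 : ℝ) * x ^ (-(11 / 20 : ℝ))) / 30)
    (h0 : ∀ x, 0 < x → x ≤ xs → |ze e x (k 0 t0 x)| ≤
      x ^ (3 / 4 : ℝ) + (T - t0) ^ (3 / 2 : ℝ) * x ^ (-(11 / 20 : ℝ)))
    (hr : ∀ t, t ∈ Icc t0 t1 → |ze e xs (k 0 t xs)| ≤ xs ^ (3 / 4 : ℝ)) :
    ∀ t x, t ∈ Icc t0 t1 → 0 < x → x ≤ xs → |ze e x (k 0 t x)| ≤
      x ^ (3 / 4 : ℝ) + (T - t) ^ (3 / 2 : ℝ) * x ^ (-(11 / 20 : ℝ)) := by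
  intro t x ht a b
  have hτ : ∀ s u, s ≤ t1 → 0 < u → 0 < (T - s) ^ (3 / 2 : ℝ) * u ^ (-(11 / 20 : ℝ)) :=
    fun s u hs hu => mul_pos (Real.rpow_pos_of_pos (by linarith) _) (Real.rpow_pos_of_pos hu _)
  rw [← sub_le_iff_le_add', ← one_mul (_ * _), ← div_le_iff₀ (hτ t x ht.2 a)]
  refine le_of_forall_gt_imp_ge_of_dense fun K' hK' => ?_
  refine le_trans ?_ (min_le_left K' 2)
  have hm : 1 < min K' 2 := lt_min hK' (by norm_num)
  rw [div_le_iff₀ (hτ t x ht.2 a), ← mul_assoc, sub_le_iff_le_add']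
  refine (zeBar_lt h he he1 (ht.1.trans ht.2) hT hxs0 hxs hm.le (min_le_right _ _) hk hS ?_ hr
    t x ht a b).le
  intro u c d
  refine (h0 u c d).trans_lt ?_
  rw [mul_assoc]
  linarith [mul_lt_mul_of_pos_right hm (hτ t0 u (ht.1.trans ht.2) c)]

end Crest.Agent.N207.S.I1
end

-- ▼ part N207/S/I1/Src
section

/-!
Row 207 (S0320), block I1: pointwise estimates (source term of the `z` equation, end point,
powers of `τ`).
-/

set_option autoImplicit false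

open Set

namespace Crest.Agent.N207.S.I1

theorem sq_sub_one_le {x w0 w1 a b : ℝ} (hw : 0 < w0) (h1 : |x * w1 / w0 - 1| ≤ a)
    (h2 : |x * w1 / w0| ≤ b) : |x ^ 2 * w1 ^ 2 / w0 ^ 2 - 1| ≤ a * (b + 1) := by
  have e : x ^ 2 * w1 ^ 2 / w0 ^ 2 - 1 = (x * w1 / w0 - 1) * (x * w1 / w0 + 1) := by
    field_simp; ring
  rw [e, abs_mul]
  refine mul_le_mul h1 ((abs_add_le _ _).trans (by rw [abs_one]; linarith)) (abs_nonneg _)
    ((abs_nonneg _).trans h1)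

theorem ratio_le {x w0 w1 c : ℝ} (hx : 0 ≤ x) (hw : 0 < w0) (hxw : x ≤ c * w0) (h1 : |w1| ≤ 2) :
    |x * w1 / w0| ≤ 2 * c := by
  rw [abs_div, abs_mul, abs_of_pos hw, abs_of_nonneg hx, div_le_iff₀ hw]
  nlinarith [abs_nonneg w1]

/-- outer source bound -/
theorem src_out {x w0 w1 : ℝ} (hx : 0 < x) (hx1 : x ≤ 1 / 10 ^ 10) (hw : 0 < w0)
    (hxw : x ≤ 2 * w0) (h1 : |w1| ≤ 2) (hW : |w0 - x| ≤ x ^ (11 / 4 : ℝ))
    (hD : |w1 - 1| ≤ x ^ (7 / 4 : ℝ)) : |x ^ 2 * w1 ^ 2 / w0 ^ 2 - 1| ≤ x ^ (3 / 4 : ℝ) := by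
  have p : 0 < x ^ (3 / 4 : ℝ) := Real.rpow_pos_of_pos hx _
  have e1 : x ^ (7 / 4 : ℝ) = x * x ^ (3 / 4 : ℝ) := by
    rw [← Real.rpow_one_add' hx.le (by norm_num)]; norm_num
  have e2 : x ^ (11 / 4 : ℝ) = x * (x * x ^ (3 / 4 : ℝ)) := by
    rw [← e1, ← Real.rpow_one_add' hx.le (by norm_num)]; norm_num
  rw [e1] at hD
  rw [e2] at hW
  generalize x ^ (3 / 4 : ℝ) = p' at *
  have a1 : |x * w1 / w0 - 1| ≤ 4 * (x * p') := by
    have : x * w1 / w0 - 1 = (x * (w1 - 1) - (w0 - x)) / w0 := by field_simp; ring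
    rw [this, abs_div, abs_of_pos hw, div_le_iff₀ hw]
    have b1 : |x * (w1 - 1) - (w0 - x)| ≤ x * (x * p') + x * (x * p') := by
      refine (abs_sub _ _).trans (add_le_add ?_ hW)
      rw [abs_mul, abs_of_pos hx]
      exact mul_le_mul_of_nonneg_left hD hx.le
    have b2 : 0 < x * p' := mul_pos hx p
    nlinarith
  have := sq_sub_one_le hw a1 (ratio_le hx.le hw hxw h1)
  nlinarith

/-- inner source bound, given the interpolated bound for `D` -/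
theorem src_in {x w0 w1 ρ c : ℝ} (hx : 0 < x) (hρ : 0 < ρ) (hxw : x ≤ w0) (h1 : |w1| ≤ 2)
    (hW : w0 - x ≤ ρ ^ 2 * x) (hD : |w1 - 1| ≤ c * ρ) :
    |x ^ 2 * w1 ^ 2 / w0 ^ 2 - 1| ≤ 3 * (c + 1) * ρ := by
  have hw : 0 < w0 := hx.trans_le hxw
  have b0 : w0 - x ≤ ρ * w0 := by
    by_cases hc : 1 ≤ ρ
    · nlinarith
    · have : ρ ^ 2 * x ≤ ρ * x := by nlinarith [mul_pos hρ hx, not_le.1 hc]
      nlinarith
  have a1 : |x * w1 / w0 - 1| ≤ (c + 1) * ρ := by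
    have : x * w1 / w0 - 1 = (x * (w1 - 1) - (w0 - x)) / w0 := by field_simp; ring
    rw [this, abs_div, abs_of_pos hw, div_le_iff₀ hw]
    have b1 : |x * (w1 - 1) - (w0 - x)| ≤ w0 * (c * ρ) + ρ * w0 := by
      refine (abs_sub _ _).trans (add_le_add ?_ ?_)
      · rw [abs_mul, abs_of_pos hx]
        exact mul_le_mul hxw hD (abs_nonneg _) hw.le
      · rwa [abs_of_nonneg (by linarith)]
    linarith
  have := sq_sub_one_le hw a1 (ratio_le (c := 1) hx.le hw (by linarith) h1)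
  linarith

/-- Landau type interpolation on `[x/2, x]`. -/
theorem landau_in {f f1 f2 : ℝ → ℝ} {x ρ C : ℝ} (hx : 0 < x) (hρ : 0 < ρ) (hC : 0 ≤ C)
    (h1 : ∀ y ∈ Icc (x / 2) x, HasDerivWithinAt f (f1 y) (Icc (x / 2) x) y)
    (h2 : ∀ y ∈ Icc (x / 2) x, HasDerivWithinAt f1 (f2 y) (Icc (x / 2) x) y)
    (b0 : ∀ y ∈ Icc (x / 2) x, 0 ≤ f y ∧ f y ≤ 2 * (ρ ^ 2 * x))
    (b2 : ∀ y ∈ Icc (x / 2) x, |f2 y| ≤ 2 * C / x) (b1 : |f1 x| ≤ 3) :
    |f1 x| ≤ (2 * C + 6) * ρ := by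
  by_cases hc : 1 / 2 ≤ ρ
  · nlinarith [mul_nonneg hC hρ.le]
  have hc' : ρ < 1 / 2 := not_le.1 hc
  have hh : 0 < ρ * x := mul_pos hρ hx
  have hs : Icc (x - ρ * x) x ⊆ Icc (x / 2) x := Icc_subset_Icc (by nlinarith) le_rfl
  obtain ⟨ξ, hξ, e⟩ := exists_hasDerivAt_eq_slope f f1 (a := x - ρ * x) (b := x) (by linarith)
    (fun y hy => ((h1 y (hs hy)).continuousWithinAt).mono hs)
    (fun y hy => (h1 y (hs (Ioo_subset_Icc_self hy))).hasDerivAt
      (Icc_mem_nhds (by nlinarith [hy.1]) hy.2))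
  have hξ' : ξ ∈ Icc (x / 2) x := hs (Ioo_subset_Icc_self hξ)
  have hxm : x ∈ Icc (x / 2) x := ⟨by linarith, le_rfl⟩
  have c1 : |f1 ξ| ≤ 2 * ρ := by
    rw [e, show x - (x - ρ * x) = ρ * x by ring, abs_div, abs_of_pos hh, div_le_iff₀ hh, abs_le]
    have u := b0 x hxm
    have v := b0 _ (hs ⟨le_rfl, by linarith⟩)
    constructor <;> nlinarith
  have c2 := (convex_Icc (x / 2) x).norm_image_sub_le_of_norm_hasDerivWithin_le h2
    (fun y hy => by rw [Real.norm_eq_abs]; exact b2 y hy) hξ' hxm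
  rw [Real.norm_eq_abs, Real.norm_eq_abs, abs_of_nonneg (sub_nonneg.2 hξ.2.le)] at c2
  have c3 : 2 * C / x * (x - ξ) ≤ 2 * C * ρ := by
    have : 2 * C / x * (x - ξ) ≤ 2 * C / x * (ρ * x) :=
      mul_le_mul_of_nonneg_left (by linarith [hξ.1]) (by positivity)
    refine this.trans (le_of_eq ?_)
    field_simp
  have c4 : |f1 x| ≤ |f1 x - f1 ξ| + |f1 ξ| := by
    have := abs_add_le (f1 x - f1 ξ) (f1 ξ)
    rwa [sub_add_cancel] at this
  nlinarith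

/-- bound of the time derivative of `z` -/
theorem zt_le {e x w0 w1 k0 k1 k2 : ℝ} (he : 0 ≤ e) (he1 : e ≤ 1 / 100) (hx : 0 < x)
    (hw : 0 < w0) (hxw : x ≤ 2 * w0) (h1 : |w1| ≤ 2) (a0 : |x * k0| ≤ 1 / 100)
    (a1 : |x ^ 2 * k1| ≤ 1 / 100) (a2 : |x ^ 3 * k2| ≤ 2 / 100) :
    |-(x * rhsK e x w0 w1 k0 k1 k2)| ≤ 1 / x := by
  rw [le_div_iff₀ hx, mul_comm, ← abs_of_pos hx, ← abs_mul, abs_of_pos hx, ze_eq he hw.ne']
  have r := abs_le.1 (ratio_le hx.le hw hxw h1)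
  have er : x ^ 2 * w1 ^ 2 / w0 ^ 2 = (x * w1 / w0) ^ 2 := by field_simp
  have hz0 : 1 - 2 * e ≤ 1 / (1 + 2 * e) := by
    rw [le_div_iff₀ (by positivity)]; nlinarith
  have hz1 : 1 / (1 + 2 * e) ≤ 1 := by
    rw [div_le_one (by positivity)]; linarith
  have b0 := abs_le.1 a0
  have b1 := abs_le.1 a1
  have b2 := abs_le.1 a2
  have g : |ze e x k0| ≤ 3 / 100 := by rw [ze, abs_le]; constructor <;> linarith
  have g1 : |x * -(k0 + x * k1)| ≤ 2 / 100 := by rw [abs_le]; constructor <;> nlinarith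
  have g2 : |x ^ 2 * -(2 * k1 + x * k2)| ≤ 4 / 100 := by rw [abs_le]; constructor <;> nlinarith
  have g3 : |(x * w1 / w0) ^ 2 - 1| ≤ 15 := by rw [abs_le]; constructor <;> nlinarith
  have z : |1 - x * k0| ≤ 11 / 10 := by rw [abs_le]; constructor <;> linarith
  rw [er]
  generalize ze e x k0 = u at *
  generalize x * -(k0 + x * k1) = u1 at *
  generalize x ^ 2 * -(2 * k1 + x * k2) = u2 at *
  generalize (x * w1 / w0) ^ 2 - 1 = S at *
  generalize 1 - x * k0 = z' at *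
  have t1 : |2 * e * z' * u2| ≤ 2 * (1 / 100) * (11 / 10) * (4 / 100) := by
    rw [abs_mul, abs_mul, abs_of_nonneg (by positivity : 0 ≤ 2 * e)]; gcongr
  have t2 : |e * u1 ^ 2| ≤ 1 / 100 * (2 / 100) ^ 2 := by
    rw [abs_mul, abs_pow, abs_of_nonneg he]; gcongr
  have t3 : |z' * (1 + 2 * e) * u| ≤ 11 / 10 * (1 + 2 * (1 / 100)) * (3 / 100) := by
    rw [abs_mul, abs_mul, abs_of_nonneg (by positivity : 0 ≤ 1 + 2 * e)]; gcongr
  have t4 : |2 * e * z' ^ 2 * S| ≤ 2 * (1 / 100) * (11 / 10) ^ 2 * 15 := by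
    rw [abs_mul, abs_mul, abs_pow, abs_of_nonneg (by positivity : 0 ≤ 2 * e)]; gcongr
  have := abs_le.1 t1; have := abs_le.1 t2; have := abs_le.1 t3; have := abs_le.1 t4
  have := abs_le.1 g1
  rw [abs_le]; constructor <;> linarith

theorem tau_pow {τ x p : ℝ} (hτ : 0 < τ) (hx : 0 < x) (h : τ ^ (21 / 20 : ℝ) / 2 ≤ x) (hp : 0 ≤ p)
    (hp3 : p ≤ 3) : τ ^ (21 / 20 * p) ≤ 8 * x ^ p := by
  rw [Real.rpow_mul hτ.le]
  calc (τ ^ (21 / 20 : ℝ)) ^ p ≤ (2 * x) ^ p :=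
        Real.rpow_le_rpow (Real.rpow_nonneg hτ.le _) (by linarith) hp
    _ = 2 ^ p * x ^ p := Real.mul_rpow (by norm_num) hx.le
    _ ≤ 2 ^ (3 : ℝ) * x ^ p := mul_le_mul_of_nonneg_right
        (Real.rpow_le_rpow_of_exponent_le (by norm_num) hp3) (Real.rpow_nonneg hx.le _)
    _ = 8 * x ^ p := by norm_num

theorem tau3_le {τ x : ℝ} (hτ : 0 < τ) (hx : 0 < x) (hx1 : x ≤ 1)
    (h : τ ^ (21 / 20 : ℝ) / 2 ≤ x) : τ ^ 3 * x ^ (-(1 / 10) : ℝ) ≤ 8 * x ^ (11 / 4 : ℝ) := by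
  have h1 := tau_pow (p := 20 / 7) hτ hx h (by norm_num) (by norm_num)
  rw [show (21 / 20 * (20 / 7) : ℝ) = ((3 : ℕ) : ℝ) by norm_num, Real.rpow_natCast] at h1
  calc τ ^ 3 * x ^ (-(1 / 10) : ℝ) ≤ 8 * x ^ (20 / 7 : ℝ) * x ^ (-(1 / 10) : ℝ) :=
        mul_le_mul_of_nonneg_right h1 (Real.rpow_nonneg hx.le _)
    _ = 8 * x ^ ((20 / 7 : ℝ) + -(1 / 10)) := by rw [Real.rpow_add hx]; ring
    _ ≤ 8 * x ^ (11 / 4 : ℝ) := mul_le_mul_of_nonneg_left
        (Real.rpow_le_rpow_of_exponent_ge hx hx1 (by norm_num)) (by norm_num)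

theorem tau32_le {τ x : ℝ} (hτ : 0 < τ) (hx : 0 < x) (hx1 : x ≤ 1)
    (h : τ ^ (21 / 20 : ℝ) / 2 ≤ x) :
    τ ^ (3 / 2 : ℝ) * x ^ (-(11 / 20 : ℝ)) ≤ 8 * x ^ (3 / 4 : ℝ) := by
  have h1 := tau_pow (p := 10 / 7) hτ hx h (by norm_num) (by norm_num)
  rw [show (21 / 20 * (10 / 7) : ℝ) = 3 / 2 by norm_num] at h1
  calc τ ^ (3 / 2 : ℝ) * x ^ (-(11 / 20 : ℝ)) ≤ 8 * x ^ (10 / 7 : ℝ) * x ^ (-(11 / 20 : ℝ)) :=
        mul_le_mul_of_nonneg_right h1 (Real.rpow_nonneg hx.le _)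
    _ = 8 * x ^ ((10 / 7 : ℝ) + -(11 / 20)) := by rw [Real.rpow_add hx]; ring
    _ ≤ 8 * x ^ (3 / 4 : ℝ) := mul_le_mul_of_nonneg_left
        (Real.rpow_le_rpow_of_exponent_ge hx hx1 (by norm_num)) (by norm_num)

theorem rho_sq {τ x : ℝ} (hτ : 0 < τ) (hx : 0 < x) :
    (τ ^ (3 / 2 : ℝ) * x ^ (-(11 / 20 : ℝ))) ^ 2 * x = τ ^ 3 * x ^ (-(1 / 10 : ℝ)) := by
  rw [mul_pow, ← Real.rpow_natCast, ← Real.rpow_natCast (x ^ (-(11 / 20 : ℝ))),
    ← Real.rpow_mul hτ.le, ← Real.rpow_mul hx.le, mul_assoc, ← Real.rpow_add_one hx.ne',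
    ← Real.rpow_natCast τ 3]
  norm_num

theorem half_rpow {x y : ℝ} (hx : 0 < x) (h : x / 2 ≤ y) :
    y ^ (-(1 / 10 : ℝ)) ≤ 2 * x ^ (-(1 / 10 : ℝ)) := by
  calc y ^ (-(1 / 10 : ℝ)) ≤ (x / 2) ^ (-(1 / 10 : ℝ)) :=
        Real.rpow_le_rpow_of_nonpos (by linarith) h (by norm_num)
    _ = x ^ (-(1 / 10 : ℝ)) * 2 ^ (1 / 10 : ℝ) := by
        rw [Real.div_rpow hx.le (by norm_num), Real.rpow_neg (by norm_num : (0 : ℝ) ≤ 2),
          div_inv_eq_mul]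
    _ ≤ x ^ (-(1 / 10 : ℝ)) * 2 ^ (1 : ℝ) := mul_le_mul_of_nonneg_left
        (Real.rpow_le_rpow_of_exponent_le (by norm_num) (by norm_num)) (Real.rpow_nonneg hx.le _)
    _ = 2 * x ^ (-(1 / 10 : ℝ)) := by rw [Real.rpow_one, mul_comm]

theorem end_small {T X : ℝ} (hT : 0 < T) (hX : 0 < X) (hX1 : X ≤ 1) (h : T ≤ X ^ 2 / 2) :
    T ^ (3 / 2 : ℝ) * X ^ (-(11 / 20) : ℝ) / 2 + 1 / X * T ≤ X ^ (3 / 4 : ℝ) := by
  have h1 : T ^ (3 / 2 : ℝ) ≤ X ^ (3 : ℝ) := by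
    calc T ^ (3 / 2 : ℝ) ≤ (X ^ (2 : ℝ)) ^ (3 / 2 : ℝ) :=
          Real.rpow_le_rpow hT.le (by rw [Real.rpow_two]; nlinarith) (by norm_num)
      _ = X ^ (3 : ℝ) := by rw [← Real.rpow_mul hX.le]; norm_num
  have h2 : T ^ (3 / 2 : ℝ) * X ^ (-(11 / 20) : ℝ) ≤ X ^ (3 / 4 : ℝ) := by
    calc T ^ (3 / 2 : ℝ) * X ^ (-(11 / 20) : ℝ) ≤ X ^ (3 : ℝ) * X ^ (-(11 / 20) : ℝ) :=
          mul_le_mul_of_nonneg_right h1 (Real.rpow_nonneg hX.le _)
      _ = X ^ ((3 : ℝ) + -(11 / 20)) := (Real.rpow_add hX _ _).symm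
      _ ≤ X ^ (3 / 4 : ℝ) := Real.rpow_le_rpow_of_exponent_ge hX hX1 (by norm_num)
  have h3 : X ≤ X ^ (3 / 4 : ℝ) := by
    have := Real.rpow_le_rpow_of_exponent_ge hX hX1 (show (3 / 4 : ℝ) ≤ 1 by norm_num)
    rwa [Real.rpow_one] at this
  have h4 : 1 / X * T ≤ X / 2 := by
    rw [one_div, inv_mul_le_iff₀ hX]; nlinarith
  linarith

end Crest.Agent.N207.S.I1
end

-- ▼ part N207/S/I1/All

/-!
Row 207 (S0320), block I1: `PreStmt → Top.InnerStmt`.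
-/

set_option autoImplicit false

open Set

namespace Crest.Agent.N207.S.I1

open Top

theorem pow_mul_le {x w0 u c : ℝ} {j : ℕ} (hx : 0 ≤ x) (hw : 0 < w0) (hxw : x ≤ 2 * w0)
    (h : |w0 ^ j * u| ≤ c) : |u| * x ^ j ≤ 2 ^ j * c := by
  rw [abs_mul, abs_of_pos (pow_pos hw j)] at h
  calc |u| * x ^ j ≤ |u| * (2 * w0) ^ j :=
        mul_le_mul_of_nonneg_left (pow_le_pow_left₀ hx hxw j) (abs_nonneg _)
    _ = 2 ^ j * (w0 ^ j * |u|) := by rw [mul_pow]; ring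
    _ ≤ 2 ^ j * c := mul_le_mul_of_nonneg_left h (by positivity)

theorem abs_pow_mul_le {x w0 u c : ℝ} {j : ℕ} (hx : 0 ≤ x) (hw : 0 < w0) (hxw : x ≤ 2 * w0)
    (h : |w0 ^ j * u| ≤ c) : |x ^ j * u| ≤ 2 ^ j * c := by
  rw [abs_mul, abs_of_nonneg (pow_nonneg hx j), mul_comm]
  exact pow_mul_le hx hw hxw h

section
variable {C e t T X : ℝ} {w wt k kt : ℕ → ℝ → ℝ → ℝ}

theorem inn_of (he : 0 < e) (he1 : e ≤ 1 / 100) (h : XSol e 0 t X w wt k kt) (hT : t < T)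
    (hTX : T ≤ X) (hD : DatI e T X w k)
    (hk : ∀ s x, s ∈ Icc 0 t → x ∈ Icc 0 X → |x * k 0 s x| ≤ 1 / 100)
    (hO : ∀ s ∈ Icc 0 t, Out.Out T X w s) :
    ∀ s ∈ Icc 0 t, (∀ x ∈ Icc 0 ((T - s) / 200), (T - s) ^ 3 / 4 ≤ w 0 s x - x) ∧
      (∀ x ∈ Ioc 0 ((T - s) / 200),
        w 0 s x - x ≤ 3 / 4 * (T - s) ^ 3 * x ^ (-(1 / 10 : ℝ))) := by
  intro s hs
  have hT0 : 0 < T := by linarith [hs.1, hs.2]
  have hy : (1 / 200 : ℝ) * (T - 0) ≤ X := by linarith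
  have ey : ∀ u : ℝ, (1 / 200 : ℝ) * u = u / 200 := fun u => by ring
  have hz : ∀ u x, u ∈ Icc 0 t → 0 ≤ x → x ≤ 1 / 200 * (T - u) →
      0 ≤ 1 - x * k 0 u x ∧ 1 - x * k 0 u x ≤ 2 := by
    intro u x hu a b
    have := abs_le.1 (hk u x hu ⟨a, by linarith [hu.1]⟩)
    constructor <;> linarith
  constructor
  · intro x hx
    have := lowW (y := 1 / 200) (c := 1 / 4) h he.le hT (by norm_num) hy (by norm_num)
      (fun u x hu a b => (hz u x hu a b).1)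
      (fun x a b => by
        have := (hD.1 x ⟨a, by linarith⟩).1
        rw [sub_zero]; linarith)
      (fun u hu => by
        have := (hO u hu).2.1
        rw [ey]; linarith) s x hs hx.1 (by linarith [hx.2])
    linarith
  · intro x hx
    exact upW (y := 1 / 200) (K := 3 / 4) h he.le he1 hT (by norm_num) le_rfl hy (by norm_num) hz
      (fun x a b => by
        have := hD.2.1 x ⟨a, by linarith⟩
        rwa [sub_zero])
      (fun u hu => by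
        have := (hO u hu).2.2
        rwa [ey]) s x hs hx.1 (by linarith [hx.2])

theorem src_of (hC : 1 ≤ C) (he : 0 < e) (heC : C * e ≤ 1 / 1000) (hX : X ≤ 1 / 10 ^ 10)
    (h : XSol e 0 t X w wt k kt) (hT : t < T) {s : ℝ} (hs : s ∈ Icc 0 t)
    (hO : Out.Out T X w s) (hP : Pre X w s) (hR : RX C e X w k s)
    (hl : ∀ x ∈ Icc 0 ((T - s) / 200), (T - s) ^ 3 / 4 ≤ w 0 s x - x)
    (hu : ∀ x ∈ Ioc 0 ((T - s) / 200), w 0 s x - x ≤ 3 / 4 * (T - s) ^ 3 * x ^ (-(1 / 10 : ℝ)))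
    {x : ℝ} (hx : 0 < x) (hxX : x ≤ X) :
    e * |x ^ 2 * w 1 s x ^ 2 / w 0 s x ^ 2 - 1| ≤
      (x ^ (3 / 4 : ℝ) + (T - s) ^ (3 / 2 : ℝ) * x ^ (-(11 / 20 : ℝ))) / 30 := by
  have hτ : 0 < T - s := by linarith [hs.2]
  have p1 : 0 < x ^ (3 / 4 : ℝ) := Real.rpow_pos_of_pos hx _
  have hρ : 0 < (T - s) ^ (3 / 2 : ℝ) * x ^ (-(11 / 20 : ℝ)) :=
    mul_pos (Real.rpow_pos_of_pos hτ _) (Real.rpow_pos_of_pos hx _)
  have he1 : e ≤ 1 / 1000 := by nlinarith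
  have hw := h.pos s x hs ⟨hx.le, hxX⟩
  have hP' := hP x ⟨hx.le, hxX⟩
  by_cases hc : (T - s) / 200 ≤ x
  · have o := hO.1 x ⟨hc, hxX⟩
    have := src_out hx (hxX.trans hX) hw hP'.1 hP'.2 o.1 o.2.1
    nlinarith [mul_le_mul he1 this (abs_nonneg _) (by norm_num)]
  · have hc' : x ≤ (T - s) / 200 := (not_le.1 hc).le
    have hτ3 : 0 < (T - s) ^ 3 := pow_pos hτ 3
    have hm : ∀ y ∈ Icc (x / 2) x, y ∈ Icc 0 X := fun y hy => ⟨by linarith [hy.1], hy.2.trans hxX⟩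
    have hsub : Icc (x / 2) x ⊆ Icc 0 X := hm
    have p2 : 0 < x ^ (-(1 / 10 : ℝ)) := Real.rpow_pos_of_pos hx _
    have hlow : ∀ y ∈ Icc (x / 2) x, y ≤ w 0 s y := fun y hy => by
      linarith [hl y ⟨(hm y hy).1, hy.2.trans hc'⟩]
    have hD := landau_in (f := fun y => w 0 s y - y) (f1 := fun y => w 1 s y - 1)
      (f2 := fun y => w 2 s y) (C := C) hx hρ (by linarith)
      (fun y hy => ((h.jw.dx 0 s y hs (hm y hy)).mono hsub).sub (hasDerivWithinAt_id y _))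
      (fun y hy => ((h.jw.dx 1 s y hs (hm y hy)).mono hsub).sub_const 1)
      (fun y hy => ⟨sub_nonneg.2 (hlow y hy), by
        have a := hu y ⟨by linarith [hy.1], hy.2.trans hc'⟩
        have b := mul_le_mul_of_nonneg_left (half_rpow hx hy.1) hτ3.le
        rw [rho_sq hτ hx]
        nlinarith [mul_pos hτ3 p2]⟩)
      (fun y hy => by
        have a := (hR y (hm y hy) 1 (by norm_num)).1
        have b := hlow y hy
        have c := h.pos s y hs (hm y hy)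
        rw [pow_one, abs_mul, abs_of_pos c] at a
        rw [le_div_iff₀ hx]
        nlinarith [abs_nonneg (w (1 + 1) s y), hy.1])
      (by have := abs_le.1 hP'.2; rw [abs_le]; constructor <;> linarith)
    have := src_in hx hρ (hlow x ⟨by linarith, le_rfl⟩) hP'.2 (by
      have a := hu x ⟨hx, hc'⟩
      rw [rho_sq hτ hx]
      nlinarith [mul_pos hτ3 p2]) hD
    have a1 := mul_le_mul_of_nonneg_left this he.le
    have a2 : e * (3 * (2 * C + 6 + 1)) ≤ 1 / 30 := by nlinarith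
    nlinarith [mul_le_mul_of_nonneg_right a2 hρ.le]

theorem end_of (hC : 1 ≤ C) (he : 0 < e) (heC : C * e ≤ 1 / 1000) (hX0 : 0 < X) (hX : X ≤ 1)
    (h : XSol e 0 t X w wt k kt) (hT : t < T) (hTX : T ≤ X ^ 2 / 2) (hD : DatI e T X w k)
    (hP : ∀ s ∈ Icc 0 t, Pre X w s) (hR : ∀ s ∈ Icc 0 t, RX C e X w k s) :
    ∀ s, s ∈ Icc 0 t → |ze e X (k 0 s X)| ≤ X ^ (3 / 4 : ℝ) := by
  intro s hs
  have hXm : X ∈ Icc 0 X := ⟨hX0.le, le_rfl⟩
  have he1 : e ≤ 1 / 1000 := by nlinarith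
  have hT0 : 0 < T := by linarith [hs.1, hs.2]
  have c := (convex_Icc 0 t).norm_image_sub_le_of_norm_hasDerivWithin_le
    (f := fun u => ze e X (k 0 u X)) (f' := fun u => -(X * kt 0 u X)) (C := 1 / X)
    (fun u hu => (((h.jk.dt 0 u X hu hXm).const_mul X).const_sub 1).sub_const _)
    (fun u hu => by
      have hw := h.pos u X hu hXm
      have p := hP u hu X hXm
      have r0 := abs_pow_mul_le hX0.le hw p.1 (hR u hu X hXm 0 (by norm_num)).2
      have r1 := abs_pow_mul_le hX0.le hw p.1 (hR u hu X hXm 1 (by norm_num)).2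
      have r2 := abs_pow_mul_le hX0.le hw p.1 (hR u hu X hXm 2 (by norm_num)).2
      norm_num at r0 r1 r2
      rw [Real.norm_eq_abs, h.eqK u X hu hXm]
      refine zt_le he.le (by linarith) hX0 hw p.1 p.2 ?_ ?_ ?_
      · rw [abs_mul]; linarith
      · rw [abs_mul, abs_pow]; rw [sq_abs]; linarith
      · rw [abs_mul, abs_pow]; linarith)
    (⟨le_rfl, hs.1.trans hs.2⟩ : (0 : ℝ) ∈ Icc 0 t) hs
  rw [Real.norm_eq_abs, Real.norm_eq_abs, sub_zero, abs_of_nonneg hs.1] at c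
  have d := hD.2.2 X ⟨hX0, le_rfl⟩
  have f := end_small hT0 hX0 hX hTX
  have g : 1 / X * s ≤ 1 / X * T :=
    mul_le_mul_of_nonneg_left (by linarith [hs.2]) (by positivity)
  have i := abs_add_le (ze e X (k 0 s X) - ze e X (k 0 0 X)) (ze e X (k 0 0 X))
  rw [sub_add_cancel] at i
  have d' : |ze e X (k 0 0 X)| ≤ T ^ (3 / 2 : ℝ) * X ^ (-(11 / 20) : ℝ) / 2 := d
  linarith

end

theorem inner_of (hd : PreStmt) : InnerStmt := by
  intro C hC
  obtain ⟨e0, X0, he0, hX0, H⟩ := hd C hC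
  refine ⟨2 ^ 41 * C, min e0 (1 / (1000 * C)), min X0 (1 / 10 ^ 10), by nlinarith,
    lt_min he0 (by positivity), lt_min hX0 (by norm_num), fun X hX hXX => ?_⟩
  obtain ⟨τ1, hτ1, H⟩ := H X hX (hXX.trans (min_le_left _ _))
  refine ⟨min τ1 (X ^ 2 / 2), lt_min hτ1 (by positivity), ?_⟩
  intro e t T xs w wt k kt he hee hxs h ht hT hTτ hD hz hO hR
  have hP := H e t T xs w wt k kt he (hee.trans (min_le_left _ _)) hxs h ht hT
    (hTτ.trans (min_le_left _ _)) hD hz hO hR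
  have hR' := hR t ⟨ht, le_rfl⟩ hP
  have hX1 : X ≤ 1 / 10 ^ 10 := hXX.trans (min_le_right _ _)
  have hTX : T ≤ X ^ 2 / 2 := hTτ.trans (min_le_right _ _)
  have heC : C * e ≤ 1 / 1000 := by
    have := hee.trans (min_le_right _ _)
    rw [le_div_iff₀ (by positivity)] at this
    linarith
  have he1 : e ≤ 1 / 100 := by nlinarith
  have hX2 : X ≤ 1 := hX1.trans (by norm_num)
  have h' := h.monoX hxs.le
  have hk : ∀ s x, s ∈ Icc 0 t → x ∈ Icc 0 X → |x * k 0 s x| ≤ 1 / 100 := by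
    intro s x hs hx
    have := abs_pow_mul_le hx.1 (h'.pos s x hs hx) (hP s hs x hx).1
      (hR' s hs x hx 0 (by norm_num)).2
    rw [zero_add, pow_one, pow_one] at this
    linarith
  have hI := inn_of he he1 h' hT (by nlinarith) hD hk hO
  have hZ := zeBar h' he.le he1 hT hX hX1 hk
    (fun s x hs a b => src_of hC he heC hX1 h' hT hs (hO s hs) (hP s hs) (hR' s hs) (hI s hs).1
      (hI s hs).2 a b)
    (fun x a b => by
      have d : |ze e x (k 0 0 x)| ≤ T ^ (3 / 2 : ℝ) * x ^ (-(11 / 20 : ℝ)) / 2 := hD.2.2 x ⟨a, b⟩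
      have p1 : 0 < x ^ (3 / 4 : ℝ) := Real.rpow_pos_of_pos a _
      have := abs_nonneg (ze e x (k 0 0 x))
      rw [sub_zero]; linarith)
    (end_of hC he heC hX hX2 h' hT hTX hD hP hR')
  intro s hs
  have hτ : 0 < T - s := by linarith [hs.2]
  have hτ3 : 0 < (T - s) ^ 3 := pow_pos hτ 3
  refine ⟨hP s hs, ?_, fun x hx => by linarith [(hI s hs).1 x hx], fun x hx => ?_⟩
  · intro x hx
    have hx0 : 0 < x := (half_pos (Real.rpow_pos_of_pos hτ _)).trans_le hx.1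
    have hxm : x ∈ Icc 0 X := ⟨hx0.le, hx.2⟩
    have hw := h'.pos s x hs hxm
    have p := (hP s hs x hxm).1
    have hx1 : x ≤ 1 := hx.2.trans hX2
    have p1 : 0 < x ^ (11 / 4 : ℝ) := Real.rpow_pos_of_pos hx0 _
    have p2 : 0 < x ^ (3 / 4 : ℝ) := Real.rpow_pos_of_pos hx0 _
    have hC9 : (9 : ℝ) ≤ 2 ^ 41 * C := by nlinarith
    refine ⟨fun j hj => ⟨?_, ?_⟩, ?_, ?_⟩
    · refine (pow_mul_le hx0.le hw p (hR' s hs x hxm j hj).1).trans ?_
      exact mul_le_mul_of_nonneg_right (pow_le_pow_right₀ (by norm_num) (by omega)) (by linarith)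
    · refine (pow_mul_le hx0.le hw p (hR' s hs x hxm j hj).2).trans ?_
      exact mul_le_mul (pow_le_pow_right₀ (by norm_num) (by omega)) (by nlinarith)
        (by positivity) (by positivity)
    · refine le_trans ?_ (mul_le_mul_of_nonneg_right hC9 p1.le)
      by_cases hc : (T - s) / 200 ≤ x
      · linarith [((hO s hs).1 x ⟨hc, hx.2⟩).1]
      · have hc' := (not_le.1 hc).le
        have a := (hI s hs).1 x ⟨hx0.le, hc'⟩
        have b := (hI s hs).2 x ⟨hx0, hc'⟩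
        have c := tau3_le hτ hx0 hx1 hx.1
        rw [abs_of_nonneg (by linarith)]
        have : (-(1 / 10) : ℝ) = -(1 / 10 : ℝ) := rfl
        linarith
    · refine le_trans ?_ (mul_le_mul_of_nonneg_right hC9 p2.le)
      have a : |1 - x * k 0 s x - 1 / (1 + 2 * e)| ≤ _ := hZ s x hs hx0 hx.2
      linarith [tau32_le hτ hx0 hx1 hx.1]
  · have b := (hI s hs).2 x hx
    have := mul_pos hτ3 (Real.rpow_pos_of_pos hx.1 (-(1 / 10 : ℝ)))
    linarith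

end Crest.Agent.N207.S.I1
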